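import Vale.Agent.P225.Model.ModelOps
import Vale.Agent.P225.Assembly.OpFamily
import Vale.Agent.P225.Assembly.PieceSolsIns
import Vale.Agent.P225.Loop.PieceSegs

/-!
P225, model fields (helper23): the model as the data of the pieces, and the operator hypotheses of
the solution families of the pieces for the global family of the model.
-/

namespace Vale.Agent.P225.Model

open Vale.Agent.P225
open Set
open Vale.Agent.P225.Sphere (levSet mem_levSet)
open scoped Classical

noncomputable section

/-- The frame of the isometry `g` at the junction `J`, weights `mu ^ s` on values and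
`mu ^ (s-1)` on deviations. -/
def modelFrame (s : ℕ) (J : Fin 3) (g : ℕ) : GFrame J ((2 : ℝ) ^ (s + 1)) where
  Uu := Sphere.Pullback.wOp (Alg.isoJ_moves J (isoIdx g)) s
  Vu := Sphere.Pullback.wOp (Alg.isoJInv_moves J (isoIdx g)) s
  Uw := Sphere.Pullback.wOp (Alg.isoJ_moves J (isoIdx g)) ((s : ℤ) - 1)
  Vw := Sphere.Pullback.wOp (Alg.isoJInv_moves J (isoIdx g)) ((s : ℤ) - 1)
  loc := ⟨Sphere.Pullback.levelLocal_wOp _ _, Sphere.Pullback.levelLocal_wOp _ _,
    Sphere.Pullback.levelLocal_wOp _ _, Sphere.Pullback.levelLocal_wOp _ _⟩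
  bd :=
    ⟨(Sphere.Pullback.norm_wOp_le _ _).trans (pow_le_pow_right₀ one_le_two (by omega)),
      (Sphere.Pullback.norm_wOp_le _ _).trans (pow_le_pow_right₀ one_le_two (by omega)),
      (Sphere.Pullback.norm_wOp_le _ _).trans (pow_le_pow_right₀ one_le_two (by omega)),
      (Sphere.Pullback.norm_wOp_le _ _).trans (pow_le_pow_right₀ one_le_two (by omega))⟩
  inv_u := ⟨Sphere.Pullback.wOp_inverse _ _ _ (Alg.isoJ_inverse J (isoIdx g)).1,
    Sphere.Pullback.wOp_inverse _ _ _ (Alg.isoJ_inverse J (isoIdx g)).2⟩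
  inv_w := ⟨Sphere.Pullback.wOp_inverse _ _ _ (Alg.isoJ_inverse J (isoIdx g)).1,
    Sphere.Pullback.wOp_inverse _ _ _ (Alg.isoJ_inverse J (isoIdx g)).2⟩
  dev i k := by
    rw [Sphere.Pullback.wOp_apply, Sphere.Pullback.wOp_apply, Finset.mul_sum, Finset.mul_sum]
    refine Finset.sum_congr rfl fun l _ => ?_
    by_cases hl : l = k
    · subst hl
      have h1 := Blk.one_le_mu i.blk
      have h2 := Blk.one_le_mu l.blk
      rw [zpow_sub_one₀ (div_ne_zero (by linarith) (by linarith))]
      field_simp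
    · rw [show (lp.single 2 k (1 : ℝ) : HSp) l = 0 by simp [hl]]
      ring

/-- The zero insertion. -/
def zeroIns : InsOp where
  N := 0
  K := 0
  K_nonneg := le_rfl
  O₁ _ _ := 0
  O₂ _ _ := 0
  band _ _ _ := ⟨rfl, rfl⟩
  zero_row _ := ⟨rfl, rfl⟩
  norm_le g h := by simp

/-- The insertions of the model below `Nf`, in weighted coordinates. -/
def modelIns (s Nf f : ℕ) : InsOp := if f < Nf then (nilOp f).weighted s else zeroIns

/-- The model as the data of the pieces. -/
def modelPM (s Nf : ℕ) : PieceModel where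
  M := (2 : ℝ) ^ (s + 1)
  one_le_M := one_le_pow₀ one_le_two
  frame := modelFrame s
  ins := modelIns s Nf
  Ks := ∑ f ∈ Finset.range Nf, (modelIns s Nf f).size (1 / 10) (1 / 16)
  size_le f := by
    have h0 : ∀ l ∈ Finset.range Nf, 0 ≤ (modelIns s Nf l).size (1 / 10) (1 / 16) := fun l _ =>
      (modelIns s Nf l).size_nonneg (by norm_num) (by norm_num)
    by_cases hf : f < Nf
    · exact Finset.single_le_sum h0 (Finset.mem_range.2 hf)
    · rw [modelIns, if_neg hf]
      refine le_trans (le_of_eq ?_) (Finset.sum_nonneg h0)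
      simp [InsOp.size, zeroIns]

/-- The rows of an excursion as the conjugate of the diagonal operator. -/
theorem isoKer_conj (J : Fin 3) (g : ℕ) (w : Fin 3 → ℝ) (i j : St) :
    isoKer J g w i j = ∑ m ∈ levSet J (j.blk.level J),
      (Alg.isoJ J (isoIdx g)).M j m
        * (Blk.lam w m.blk * (Alg.isoJInv J (isoIdx g)).M m i) := by
  rw [isoKer_apply]
  by_cases h : j.blk.level J = i.blk.level J
  · rw [isoEnt, h]
    refine Finset.sum_congr rfl fun m _ => ?_
    rw [M_inverse (Alg.isoJ_inverse J (isoIdx g)).1]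
    ring
  · rw [isoEnt_eq_zero J g w h]
    refine (Finset.sum_eq_zero fun m hm => ?_).symm
    rw [(Alg.isoJInv_moves J (isoIdx g)).zero (L := i.blk.level J) rfl fun hm' =>
      h ((mem_levSet.1 hm).symm.trans (mem_levSet.1 hm')), mul_zero, mul_zero]

variable {κ : ℝ} {C : CapData κ} {S : Sched} {τ : Params} (H : EndHyps C S modelF τ) {i m : ℕ}
  (hm : m < (S.prog (S.j0 + i)).length) {P : Piece} (hP : (S.prog (S.j0 + i))[m] = P)
include H hm hP

omit H in
theorem mem_window {t : ℝ}
    (ht : t ∈ Icc (S.pieceStart i m) (S.pieceStart i m + P.len (S.j0 + i))) :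
    t ∈ Icc (S.pieceStart i m) (S.pieceStart i (m + 1)) := by
  rwa [S.pieceStart_succ i m hm, hP]

/-- Waits and transits: the hypothesis of `PieceSol.diag`. -/
theorem opA_diag (he : P.isExc = false) (hi : ∀ f k, P ≠ Piece.ins f k) :
    ∀ t ∈ Icc (S.pieceStart i m) (S.pieceStart i m + P.len (S.j0 + i)), ∀ l : St,
      opA C S modelF τ t l
        = Finsupp.single l (pieceLam κ P (S.j0 + i) (τ i) (S.pieceStart i m) l t) := by
  intro t ht l
  rw [modelOps.opA_window H hm (mem_window hm hP ht), hP]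
  revert he hi
  cases P <;> intro he hi
  · rfl
  · simp [Piece.isExc] at he
  · rfl
  · rfl
  · exact absurd rfl (hi _ _)

/-- Excursions: the hypothesis of `PieceSol.conj` with `V = isoJ`, `U = isoJInv`. -/
theorem opA_exc {J : Fin 3} {g k : ℕ} (he : P = Piece.exc J g k) :
    ∀ t ∈ Icc (S.pieceStart i m) (S.pieceStart i m + P.len (S.j0 + i)), ∀ l j : St,
      opA C S modelF τ t l j = ∑ n ∈ levSet J (j.blk.level J), (Alg.isoJ J (isoIdx g)).M j n
        * (pieceLam κ P (S.j0 + i) (τ i) (S.pieceStart i m) n t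
          * (Alg.isoJInv J (isoIdx g)).M n l) := by
  intro t ht l j
  rw [modelOps.opA_window H hm (mem_window hm hP ht), hP, he]
  exact isoKer_conj J g _ l j

/-- Insertions: the hypothesis of `PieceSol.ins` for the blocks of `modelPM`. -/
theorem opA_ins {s Nf f k : ℕ} (he : P = Piece.ins f k) (hf : f < Nf) :
    Asm.InsOperator (modelIns s Nf f)
      (insF₁ κ (τ i k) (P.len (S.j0 + i)) (S.pieceStart i m))
      (insF₂ κ (τ i k) (P.len (S.j0 + i)) (S.pieceStart i m)) (opA C S modelF τ) s
      (S.pieceStart i m) (S.pieceStart i m + P.len (S.j0 + i))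
      (fun g t => scaleFun κ t * (Blk.cas g.1 + Blk.cas g.2)) := by
  intro t ht l j
  rw [modelOps.opA_window H hm (mem_window hm hP ht), hP, he, modelIns, if_pos hf,
    (nilOpW_apply f s _ _ _ _).1, (nilOpW_apply f s _ _ _ _).2]
  show (Finsupp.single l (pieceLam κ (Piece.ins f k) (S.j0 + i) (τ i) (S.pieceStart i m) l t)
      + insF₁ κ (τ i k) ((Piece.ins f k).len (S.j0 + i)) (S.pieceStart i m) t • ins1 f l
      + insF₂ κ (τ i k) ((Piece.ins f k).len (S.j0 + i)) (S.pieceStart i m) t • ins2 f l : St →₀ ℝ) j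
    = _
  simp only [Finsupp.add_apply, Finsupp.smul_apply, smul_eq_mul, Finsupp.single_apply,
    PiLp.single_apply, ite_mul, one_mul, zero_mul, Finset.sum_ite_eq', Finset.mem_univ, if_true]
  have h1 : l.blk.mu ^ s ≠ 0 := pow_ne_zero _ (zero_lt_one.trans_le (Blk.one_le_mu _)).ne'
  have h2 : j.blk.mu ^ s ≠ 0 := pow_ne_zero _ (zero_lt_one.trans_le (Blk.one_le_mu _)).ne'
  rw [div_pow]
  split_ifs with hlj
  · subst hlj
    rw [pieceLam_ins]
    simp only [Blk.level, Matrix.cons_val_zero]
    field_simp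
    ring
  · field_simp
    ring

end

end Vale.Agent.P225.Model
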