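import Vale.Agent.P225.Model.InsForm
import Vale.Agent.P225.Loop.PieceIns

/-!
P225, model fields (helper1): the blocks between levels of two insertion tensors, in the form which
the insertion segment uses.
-/

namespace Vale.Agent.P225.Model

open Vale.Agent.P225.Sphere
open scoped Classical BigOperators

noncomputable section

/-- The block of `insEnt p S` from the level `h` to the level `g`. -/
def insBlock (p : Pol) (S : M6) (g h : ℕ × ℕ) : LevSp 0 h →L[ℝ] LevSp 0 g :=
  LinearMap.toContinuousLinearMap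
    (Matrix.toEuclideanLin (Matrix.of fun (j : Fib 0 g) (i : Fib 0 h) => insEnt p S i.1 j.1))

theorem insBlock_apply (p : Pol) (S : M6) (g h : ℕ × ℕ) (v : LevSp 0 h) (j : Fib 0 g) :
    insBlock p S g h v j = ∑ i, v i * insEnt p S i.1 j.1 := by
  simp [insBlock, Matrix.toLpLin_apply, Matrix.mulVec, dotProduct, mul_comm]

theorem insBlock_eq_zero (p : Pol) (S : M6) {g h : ℕ × ℕ} (hh : h ∉ bandSet (band p) g) :
    insBlock p S g h = 0 := by
  refine ContinuousLinearMap.ext fun v => ?_
  ext j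
  rw [insBlock_apply]
  refine Finset.sum_eq_zero fun i _ => ?_
  rw [insEnt_eq_zero, mul_zero]
  rw [i.2, j.2]
  intro hb
  exact hh (mem_bandSet_comm.2 hb)

theorem sqrt_cas_le_muL (g : ℕ × ℕ) : Real.sqrt (Blk.cas g.1 + Blk.cas g.2) ≤ 2 * muL g := by
  have h1 : (0 : ℝ) ≤ g.1 := Nat.cast_nonneg _
  have h2 : (0 : ℝ) ≤ g.2 := Nat.cast_nonneg _
  rw [Real.sqrt_le_left (by have := muL_pos g; positivity)]
  simp only [Blk.cas, muL]
  nlinarith

theorem norm_insBlock_le (p : Pol) (S : M6) (g h : ℕ × ℕ) :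
    ‖insBlock p S g h‖ ≤ supN p * absSum S
      * Real.sqrt (Blk.cas g.1 + Blk.cas g.2) * Real.sqrt (Blk.cas h.1 + Blk.cas h.2) := by
  have hC := (supN_spec p).1
  have hS : 0 ≤ absSum S := Finset.sum_nonneg fun a _ => Finset.sum_nonneg fun b _ => abs_nonneg _
  refine ContinuousLinearMap.opNorm_le_bound _ (by positivity) fun v => ?_
  set w := insBlock p S g h v with hw
  have key := abs_insEnt_comb_le p S (fun i => v i) (fun j => w j)
  have e : ∑ i, ∑ j, v i * w j * insEnt p S i.1 j.1 = ‖w‖ ^ 2 := by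
    rw [EuclideanSpace.real_norm_sq_eq, Finset.sum_comm]
    refine Finset.sum_congr rfl fun j _ => ?_
    rw [sq]
    nth_rewrite 3 [hw]
    rw [insBlock_apply, Finset.mul_sum]
    exact Finset.sum_congr rfl fun i _ => by ring
  rw [e, abs_of_nonneg (sq_nonneg _), ← EuclideanSpace.real_norm_sq_eq, ← EuclideanSpace.real_norm_sq_eq,
    Real.sqrt_sq (norm_nonneg _), Real.sqrt_sq (norm_nonneg _)] at key
  rcases (norm_nonneg w).eq_or_lt with h0 | h0
  · rw [← h0]; positivity
  · refine le_of_mul_le_mul_right ?_ h0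
    calc ‖w‖ * ‖w‖ = ‖w‖ ^ 2 := (sq _).symm
      _ ≤ _ := key
      _ = _ := by ring

theorem norm_insBlock_le_muL (p : Pol) (S : M6) (g h : ℕ × ℕ) :
    ‖insBlock p S g h‖ ≤ 4 * supN p * absSum S * (2 * band p + 1 : ℕ) * muL g ^ 2 := by
  have hC := (supN_spec p).1
  have hS : 0 ≤ absSum S := Finset.sum_nonneg fun a _ => Finset.sum_nonneg fun b _ => abs_nonneg _
  have hg := one_le_muL g
  by_cases hh : h ∈ bandSet (band p) g
  · refine (norm_insBlock_le p S g h).trans ?_
    have hm : muL h ≤ (2 * band p + 1 : ℕ) * muL g := by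
      simp only [bandSet, Finset.mem_product, Finset.mem_Icc] at hh
      have h1 : (h.1 : ℝ) ≤ g.1 + band p := by exact_mod_cast hh.1.2
      have h2 : (h.2 : ℝ) ≤ g.2 + band p := by exact_mod_cast hh.2.2
      have h3 : (band p : ℝ) ≤ band p * muL g :=
        le_mul_of_one_le_right (Nat.cast_nonneg _) hg
      push_cast
      simp only [muL] at h3 ⊢
      linarith
    have h4 := mul_le_mul (sqrt_cas_le_muL g)
      ((sqrt_cas_le_muL h).trans (mul_le_mul_of_nonneg_left hm zero_le_two)) (Real.sqrt_nonneg _)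
      (by linarith : (0 : ℝ) ≤ 2 * muL g)
    calc supN p * absSum S * Real.sqrt (Blk.cas g.1 + Blk.cas g.2)
          * Real.sqrt (Blk.cas h.1 + Blk.cas h.2)
        ≤ supN p * absSum S * (2 * muL g * (2 * ((2 * band p + 1 : ℕ) * muL g))) := by
          rw [mul_assoc (supN p * absSum S)]
          exact mul_le_mul_of_nonneg_left h4 (mul_nonneg hC hS)
      _ = _ := by ring
  · rw [insBlock_eq_zero p S hh, norm_zero]
    positivity

theorem insBlock_zero_row (p : Pol) (S : M6) (h : ℕ × ℕ) : insBlock p S 0 h = 0 := by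
  refine norm_le_zero_iff.1 ((norm_insBlock_le p S 0 h).trans (le_of_eq ?_))
  simp [Blk.cas]

theorem bandSet_mono {N M : ℕ} (hNM : N ≤ M) (g : ℕ × ℕ) : bandSet N g ⊆ bandSet M g := by
  intro h hh
  simp only [bandSet, Finset.mem_product, Finset.mem_Icc] at hh ⊢
  omega

/-- The two blocks of an insertion. -/
def insOp (p₁ p₂ : Pol) (S₁ S₂ : M6) : InsOp where
  N := max (band p₁) (band p₂)
  K := max (4 * supN p₁ * absSum S₁ * (2 * band p₁ + 1 : ℕ))
    (4 * supN p₂ * absSum S₂ * (2 * band p₂ + 1 : ℕ))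
  K_nonneg := le_max_of_le_left (by
    have := (supN_spec p₁).1
    have : 0 ≤ absSum S₁ :=
      Finset.sum_nonneg fun a _ => Finset.sum_nonneg fun b _ => abs_nonneg _
    positivity)
  O₁ := insBlock p₁ S₁
  O₂ := insBlock p₂ S₂
  band g h hh :=
    ⟨insBlock_eq_zero p₁ S₁ fun e => hh (bandSet_mono (le_max_left _ _) g e),
      insBlock_eq_zero p₂ S₂ fun e => hh (bandSet_mono (le_max_right _ _) g e)⟩
  zero_row h := ⟨insBlock_zero_row p₁ S₁ h, insBlock_zero_row p₂ S₂ h⟩
  norm_le g h := by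
    have hg : 0 ≤ muL g ^ 2 := sq_nonneg _
    exact ⟨(norm_insBlock_le_muL p₁ S₁ g h).trans
        (mul_le_mul_of_nonneg_right (le_max_left _ _) hg),
      (norm_insBlock_le_muL p₂ S₂ g h).trans
        (mul_le_mul_of_nonneg_right (le_max_right _ _) hg)⟩

end

end Vale.Agent.P225.Model
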