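import Vale.Agent.P225.Model.Isos

/-!
P225, model fields (helper1): in the frames of the junction isometries the base fields keep their
brackets.
-/

namespace Vale.Agent.P225.Model

open scoped BigOperators ContDiff
open Set Matrix Finset

noncomputable section

theorem fin7_cases (a : Fin 7) : a = 0 ∨ ∃ k, a = P225.idx k := by
  fin_cases a
  exacts [.inl rfl, .inr ⟨(0, 0), rfl⟩, .inr ⟨(0, 1), rfl⟩, .inr ⟨(0, 2), rfl⟩,
    .inr ⟨(1, 0), rfl⟩, .inr ⟨(1, 1), rfl⟩, .inr ⟨(1, 2), rfl⟩]

theorem baseStruct_zero (p q : Fin 7) :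
    baseStruct 0 p q = 0 ∧ baseStruct p 0 q = 0 ∧ baseStruct p q 0 = 0 := by
  fin_cases p <;> fin_cases q <;> simp [baseStruct]

/-- The frame matrix of a frame map keeps the brackets of the base fields. -/
theorem changeStruct_frameMap (T : FrameMap) (B : Pt 7 → M6) {y : Pt 7} (hy : y ∈ chartOff)
    (hB : B y * T.A (nz2 (sph y)) = 1) (a b f : Fin 7) :
    changeStruct baseField (fun p q r _ => baseStruct p q r)
      (fun x => lift7 (T.A (nz2 (sph x)))) (fun x => lift7 (B x)) a b f y = baseStruct a b f := by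
  have hz : OnS (sph y) := by
    obtain ⟨h1, h2⟩ := sph_mem hy
    exact ⟨by simpa [dotProduct, sq] using h1, by simpa [dotProduct, sq] using h2⟩
  set M : Pt 7 → Matrix (Fin 7) (Fin 7) ℝ := fun x => lift7 (T.A (nz2 (sph x))) with hM
  set z := sph y
  have hA : nz2 z = z := nz2_eq hz
  have hdn : DifferentiableAt ℝ nz2 z :=
    ((contDiffOn_nz2 (n := 1)).differentiableOn one_ne_zero).differentiableAt
      (isOpen_punct.mem_nhds hz.mem_punct)
  have hd : ∀ p q v, dirDeriv (fun x => T.A (nz2 (sph x)) p q) v y =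
      fderiv ℝ (fun w => T.A (nz2 w) p q) z (fderiv ℝ sph y v) := fun p q v => by
    have h := ((T.diff_A p q _).comp z hdn).hasFDerivAt.comp y (differentiableAt_sph hy).hasFDerivAt
    show fderiv ℝ (fun x => T.A (nz2 (sph x)) p q) y v = _
    rw [show (fun x => T.A (nz2 (sph x)) p q) = ((fun w => T.A w p q) ∘ nz2) ∘ sph from rfl,
      h.fderiv]
    rfl
  have hd0 : ∀ p q, dirDeriv (fun x => T.A (nz2 (sph x)) p q) (baseField 0 y) y = 0 := fun p q => by
    rw [hd, fderiv_sph_zero hy, map_zero]
  have hd1 : ∀ p q k, dirDeriv (fun x => T.A (nz2 (sph x)) p q) (baseField (P225.idx k) y) y =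
      xD k (fun w => T.A w p q) z := fun p q k => by
    rw [hd, fderiv_sph_idx hy, ← hA, ← xD_comp_nz2 (T.diff_A p q) hz.mem_punct, hA]
    rfl
  have hc : ∀ h p, dirDeriv (fun x => M x h 0) p y = 0 ∧ dirDeriv (fun x => M x 0 h) p y = 0 := by
    intro h p
    rcases fin7_cases h with rfl | ⟨k, rfl⟩ <;>
      simp [hM, lift7_zero_zero, lift7_zero_idx, lift7_idx_zero, dirDeriv]
  have key : ∀ h, changeBracket baseField (fun p q r _ => baseStruct p q r) M a b h y
      = ∑ g, M y h g * baseStruct a b g := by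
    intro h
    simp only [changeBracket, dirDeriv_changeFrame]
    simp only [sum_fin7]
    rcases fin7_cases a with rfl | ⟨k, rfl⟩
    · rcases fin7_cases b with rfl | ⟨l, rfl⟩ <;> rcases fin7_cases h with rfl | ⟨m, rfl⟩ <;>
        simp [baseStruct_zero, hM, lift7_zero_zero, lift7_zero_idx, lift7_idx_zero, lift7_idx_idx] <;>
          simp [dirDeriv] <;> exact hd0 _ _
    rcases fin7_cases b with rfl | ⟨l, rfl⟩
    · rcases fin7_cases h with rfl | ⟨m, rfl⟩ <;>
        simp [baseStruct_zero, hM, lift7_zero_zero, lift7_zero_idx, lift7_idx_zero, lift7_idx_idx] <;>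
          simp [dirDeriv] <;> exact hd0 _ _
    rcases fin7_cases h with rfl | ⟨m, rfl⟩
    · simp [hc, baseStruct_zero, hM, lift7_zero_zero, lift7_zero_idx, lift7_idx_zero,
        lift7_idx_idx, dirDeriv]
    · simp only [hM, lift7_idx_idx, lift7_zero_idx, lift7_idx_zero, baseStruct_zero, zero_mul,
        mul_zero, zero_add, Finset.sum_const_zero, hd1, hA]
      have e : T.A (nz2 (sph y)) = T.A z := by rw [show nz2 (sph y) = z from hA]
      simp only [e]
      simpa only [cc] using T.str z hz k l m
  simp only [changeStruct, key]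
  rw [← hM] at *
  have e : ∀ g, ∑ h, lift7 (B y) f h * M y h g = if f = g then 1 else 0 := fun g => by
    rw [← mul_apply, hM, lift7_mul, hB, lift7_one, one_apply]
  calc ∑ h, lift7 (B y) f h * ∑ g, M y h g * baseStruct a b g
      = ∑ g, (∑ h, lift7 (B y) f h * M y h g) * baseStruct a b g := by
        simp only [Finset.mul_sum, Finset.sum_mul, mul_assoc]
        exact Finset.sum_comm
    _ = baseStruct a b f := by simp [e]

/-- The bracket hypothesis of the Ricci criterion for the junction isometries. -/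
theorem changeStruct_isoA (J : Fin 3) (g : ℕ) {y : Pt 7} (hy : y ∈ chartOff) (a b f : Fin 7) :
    changeStruct baseField (fun p q r _ => baseStruct p q r)
      (fun x => lift7 (isoA J g (sph x))) (fun x => lift7 (isoB J g (sph x))) a b f y
      = baseStruct a b f :=
  changeStruct_frameMap (isoM J (isoIdx g)) _ hy (isoB_mul_isoA J g _) a b f

end

end Vale.Agent.P225.Model
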