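import Vale.Agent.P225.Model.InsTensor

/-!
P225 (helper20): the countable list of insertion tensors: a monomial in the eight real coordinates
times one of the finitely many nilpotent tensors.
-/

namespace Vale.Agent.P225.InsTensor

open MvPolynomial Matrix
open Sphere (Pol R44 ev)
open scoped ContDiff ComplexConjugate

noncomputable section

/-- The eight coordinates as polynomials in the entries. -/
def coordP (p : Fin 2 × Fin 4) : Pol :=
  ![(1 / 2 : ℂ) • (X (p.1, 0, 0) + X (p.1, 1, 1)),
    (-Complex.I / 2) • (X (p.1, 0, 0) - X (p.1, 1, 1)),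
    (1 / 2 : ℂ) • (X (p.1, 0, 1) - X (p.1, 1, 0)),
    (-Complex.I / 2) • (X (p.1, 0, 1) + X (p.1, 1, 0))] p.2

/-- A coordinate. -/
def coord (p : Fin 2 × Fin 4) (z : R44) : ℝ := ![z.1, z.2] p.1 p.2

theorem ev_coordP (p : Fin 2 × Fin 4) (z : R44) : ev (coordP p) z = (coord p z : ℂ) := by
  obtain ⟨f, i⟩ := p
  fin_cases f <;> fin_cases i <;>
    simp [coordP, coord, Sphere.ev_X, Sphere.ent, Sphere.mat, Complex.ext_iff] <;> ring

/-- A monomial in the coordinates. -/
def monP (e : Fin 2 × Fin 4 → ℕ) : Pol := ∏ p, coordP p ^ e p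

theorem ev_one (z : R44) : ev (1 : Pol) z = 1 := by simp [Sphere.ev_apply]

theorem ev_monP (e : Fin 2 × Fin 4 → ℕ) (z : R44) :
    ev (monP e) z = ((∏ p, coord p z ^ e p : ℝ) : ℂ) := by
  rw [monP, Sphere.ev_apply, map_prod, Complex.ofReal_prod]
  exact Finset.prod_congr rfl fun p _ => by
    rw [map_pow, ← Sphere.ev_apply, ev_coordP, Complex.ofReal_pow]

theorem isRe_monP (e : Fin 2 × Fin 4 → ℕ) : IsRe (monP e) := fun z => by
  rw [ev_monP, Complex.conj_ofReal]

/-- The list of insertion tensors. -/
def nilDat : ℕ → (Fin 2 × Fin 4 → ℕ) × NilIdx :=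
  haveI : Nonempty NilIdx := ⟨(⟨((0, 0), (0, 1)), by decide⟩, false)⟩
  Classical.choose (exists_surjective_nat ((Fin 2 × Fin 4 → ℕ) × NilIdx))

theorem nilDat_surjective : Function.Surjective nilDat :=
  haveI : Nonempty NilIdx := ⟨(⟨((0, 0), (0, 1)), by decide⟩, false)⟩
  Classical.choose_spec (exists_surjective_nat ((Fin 2 × Fin 4 → ℕ) × NilIdx))

/-- The polynomial of insertion `f`. -/
def nilPol (f : ℕ) : Pol := monP (nilDat f).1

/-- The tensor of insertion `f`. -/
def nilTen (f : ℕ) : NilIdx := (nilDat f).2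

theorem isRe_nilPol (f : ℕ) : IsRe (nilPol f) := isRe_monP _

/-- The tensor field of insertion `f`. -/
def nilField (f : ℕ) (z : Sph) : M6 := (ev (nilPol f) z).re • nilMat (nilTen f)

theorem nilField_sq (f : ℕ) (z : Sph) : nilField f z * nilField f z = 0 := smul_nilMat_sq _ _

theorem contDiff_re_ev (p : Pol) {n : WithTop ℕ∞} : ContDiff ℝ n fun z => (ev p z).re :=
  Complex.reCLM.contDiff.comp (Sphere.contDiff_ev p)

theorem contDiff_nilField (f : ℕ) (p q : Fin 2 × Fin 3) {n : WithTop ℕ∞} :
    ContDiff ℝ n fun z => nilField f z p q := by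
  simp only [nilField, Matrix.smul_apply, smul_eq_mul]
  exact (contDiff_re_ev _).mul contDiff_const

theorem contDiffOn_nilField (f : ℕ) (p q : Fin 2 × Fin 3) (s : Set Sph) :
    ContDiffOn ℝ ∞ (fun z => nilField f z p q) s := (contDiff_nilField f p q).contDiffOn

/-- Every monomial with every tensor occurs. -/
theorem exists_nil (e : Fin 2 × Fin 4 → ℕ) (N : NilIdx) :
    ∃ f, nilPol f = monP e ∧ nilTen f = N := by
  obtain ⟨f, hf⟩ := nilDat_surjective (e, N)
  exact ⟨f, by rw [nilPol, hf], by rw [nilTen, hf]⟩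

/-- The monomials span all polynomial functions. -/
theorem ev_mem_span (p : Pol) :
    ev p ∈ Submodule.span ℂ (Set.range fun e => ev (monP e)) := by
  set M := Submodule.span ℂ (Set.range fun e => ev (monP e))
  have hmul : ∀ g ∈ M, ∀ q : Fin 2 × Fin 4, (fun z => g z * (coord q z : ℂ)) ∈ M := by
    intro g hg q
    induction hg using Submodule.span_induction with
    | mem g hg =>
        obtain ⟨e, rfl⟩ := hg
        refine Submodule.subset_span ⟨e + Pi.single q 1, funext fun z => ?_⟩
        have h1 : ∏ r, coord r z ^ ((Pi.single q 1 : Fin 2 × Fin 4 → ℕ) r) = coord q z := by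
          rw [Fintype.prod_eq_single q fun r hr => by rw [Pi.single_eq_of_ne hr, pow_zero],
            Pi.single_eq_same, pow_one]
        simp only [ev_monP, Pi.add_apply, pow_add, Finset.prod_mul_distrib, Complex.ofReal_mul, h1]
    | zero => convert zero_mem M using 1; funext z; simp
    | add g h _ _ ig ih => convert add_mem ig ih using 1; funext z; simp [add_mul]
    | smul c g _ ig => convert M.smul_mem c ig using 1; funext z; simp [mul_assoc]
  have hone : ev (monP 0) = fun _ => (1 : ℂ) := funext fun z => by simp [ev_monP]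
  induction p using MvPolynomial.induction_on with
  | C c =>
      convert M.smul_mem c (Submodule.subset_span ⟨0, rfl⟩) using 1
      funext z; simp [hone, Sphere.ev_apply]
  | add p q hp hq => rw [map_add]; exact add_mem hp hq
  | mul_X p v hp =>
      obtain ⟨f, i, j⟩ := v
      have e : ∀ z, Sphere.ent z (f, i, j) =
          (![![1, 0], ![0, 1]] i j : ℂ) * coord (f, 0) z
          + (![![Complex.I, 0], ![0, -Complex.I]] i j : ℂ) * coord (f, 1) z
          + (![![0, 1], ![-1, 0]] i j : ℂ) * coord (f, 2) z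
          + (![![0, Complex.I], ![Complex.I, 0]] i j : ℂ) * coord (f, 3) z := fun z => by
        fin_cases f <;> fin_cases i <;> fin_cases j <;>
          simp [coord, Sphere.ent, Sphere.mat, Complex.ext_iff]
      have := add_mem (add_mem (add_mem
        (M.smul_mem (![![1, 0], ![0, 1]] i j : ℂ) (hmul _ hp (f, 0)))
        (M.smul_mem (![![Complex.I, 0], ![0, -Complex.I]] i j : ℂ) (hmul _ hp (f, 1))))
        (M.smul_mem (![![0, 1], ![-1, 0]] i j : ℂ) (hmul _ hp (f, 2))))
        (M.smul_mem (![![0, Complex.I], ![Complex.I, 0]] i j : ℂ) (hmul _ hp (f, 3)))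
      convert this using 1
      funext z
      simp only [Sphere.ev_mul, Sphere.ev_X, e z, Pi.add_apply, Pi.smul_apply, smul_eq_mul]
      ring

end

end Vale.Agent.P225.InsTensor
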