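import Vale.Agent.P225.Model.IsoLap
import Vale.Agent.P225.Model.IsoBracket
import Vale.Agent.P225.Model.InsBlock
import Vale.Agent.P225.Model.NilList
import Vale.Agent.P225.Alg.Model.LevelSpin

/-!
P225, model fields (helper1): the fields of the model, their smoothness and the matrices of the
cross Laplacian of an insertion.
-/

namespace Vale.Agent.P225.Model

open Vale.Agent.P225.Sphere
open scoped Classical ContDiff BigOperators
open Matrix (transpose_apply mul_apply)

noncomputable section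

/-- The fields of the model: isometries of the junctions and insertion tensors. -/
def modelF : ModelFields Sph where
  iso := isoA
  nil := InsTensor.nilField
  iso_fix := isoA_fix
  nil_sq := InsTensor.nilField_sq

theorem modelSmooth : ModelSmooth modelF where
  iso_smooth := contDiffOn_isoA
  nil_smooth f p q := InsTensor.contDiffOn_nilField f p q _

/-- The polynomial of the second order of insertion `f`. -/
def nilPol2 (f : ℕ) : Pol := InsTensor.nilPol f * InsTensor.nilPol f

/-- The matrix of the second order of insertion `f`. -/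
def nilSq (f : ℕ) : M6 :=
  (InsTensor.nilMat (InsTensor.nilTen f)).transpose * InsTensor.nilMat (InsTensor.nilTen f)

/-- The first order of insertion `f` on the basis. -/
def ins1 (f : ℕ) (i : St) : St →₀ ℝ :=
  insKer (InsTensor.nilPol f) (InsTensor.symN (InsTensor.nilTen f)) i

/-- The second order of insertion `f` on the basis. -/
def ins2 (f : ℕ) (i : St) : St →₀ ℝ := insKer (nilPol2 f) (nilSq f) i

/-- The blocks of insertion `f` between levels. -/
def nilOp (f : ℕ) : InsOp :=
  insOp (InsTensor.nilPol f) (nilPol2 f) (InsTensor.symN (InsTensor.nilTen f)) (nilSq f)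

theorem nilOp_apply (f : ℕ) (g h : ℕ × ℕ) (v : LevSp 0 h) (j : Fib 0 g) :
    (nilOp f).O₁ g h v j = ∑ i, v i * ins1 f i.1 j.1 ∧
      (nilOp f).O₂ g h v j = ∑ i, v i * ins2 f i.1 j.1 :=
  ⟨insBlock_apply _ _ g h v j, insBlock_apply _ _ g h v j⟩

theorem crossLap_add {P P' : Sph → M6} {Φ : Sph → ℝ} {z : Sph}
    (hP : ∀ p q, DifferentiableAt ℝ (fun w => P w p q) z)
    (hP' : ∀ p q, DifferentiableAt ℝ (fun w => P' w p q) z) (hΦ : ContDiff ℝ 2 Φ) :
    crossLap (fun w => P w + P' w) Φ z = crossLap P Φ z + crossLap P' Φ z := by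
  have hX : ∀ q, DifferentiableAt ℝ (xD q Φ) z := fun q =>
    (contDiff_xD (m := 1) hΦ le_rfl q).differentiable one_ne_zero z
  simp only [crossLap_eq, ← Finset.sum_add_distrib]
  refine Finset.sum_congr rfl fun p _ => ?_
  have h1 : DifferentiableAt ℝ (fun w => ∑ q, P w p q * xD q Φ w) z :=
    DifferentiableAt.fun_sum fun q _ => (hP p q).fun_mul (hX q)
  have h2 : DifferentiableAt ℝ (fun w => ∑ q, P' w p q * xD q Φ w) z :=
    DifferentiableAt.fun_sum fun q _ => (hP' p q).fun_mul (hX q)
  simp only [Matrix.add_apply, add_mul, Finset.sum_add_distrib]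
  simp only [xD] at h1 h2 ⊢
  rw [fderiv_fun_add h1 h2]
  rfl

theorem crossLap_smul (c : ℝ) {P : Sph → M6} {Φ : Sph → ℝ} {z : Sph}
    (hP : ∀ p q, DifferentiableAt ℝ (fun w => P w p q) z) (hΦ : ContDiff ℝ 2 Φ) :
    crossLap (fun w => c • P w) Φ z = c * crossLap P Φ z := by
  have hX : ∀ q, DifferentiableAt ℝ (xD q Φ) z := fun q =>
    (contDiff_xD (m := 1) hΦ le_rfl q).differentiable one_ne_zero z
  simp only [crossLap_eq, Finset.mul_sum]
  refine Finset.sum_congr rfl fun p _ => ?_
  have h1 : DifferentiableAt ℝ (fun w => ∑ q, P w p q * xD q Φ w) z :=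
    DifferentiableAt.fun_sum fun q _ => (hP p q).fun_mul (hX q)
  simp only [Matrix.smul_apply, smul_eq_mul, mul_assoc, ← Finset.mul_sum]
  simp only [xD] at h1 ⊢
  rw [fderiv_const_mul h1]
  rfl

theorem gram_ins_expand (f : ℕ) (e : ℝ) (x : Sph) :
    (1 + e • modelF.nil f x).transpose * gram (rawExc 0) * (1 + e • modelF.nil f x) =
      gram (rawExc 0)
        + e • (reEv (InsTensor.nilPol f) x • InsTensor.symN (InsTensor.nilTen f))
        + e ^ 2 • (reEv (nilPol2 f) x • nilSq f) := by
  have h2 : reEv (nilPol2 f) x = reEv (InsTensor.nilPol f) x * reEv (InsTensor.nilPol f) x := by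
    rw [reEv, nilPol2, ev_mul, reEv, ← (InsTensor.isRe_nilPol f).ofReal_re x]
    simp
  rw [h2]
  show (1 + e • InsTensor.nilField f x).transpose * _ * (1 + e • InsTensor.nilField f x) = _
  simp only [InsTensor.nilField, InsTensor.symN, InsTensor.gram0, Matrix.transpose_add,
    Matrix.transpose_one, Matrix.transpose_smul, Matrix.mul_one, Matrix.one_mul, nilSq,
    add_mul, mul_add, smul_mul_assoc, mul_smul_comm, smul_smul, smul_add, reEv]
  module

/-- The cross Laplacian of an insertion on the basis. -/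
theorem crossLap_nil (f : ℕ) (e : ℝ) (i : St) {z : Sph} (hz : OnS z) :
    crossLap (fun x => (1 + e • modelF.nil f x).transpose * gram (rawExc 0)
        * (1 + e • modelF.nil f x)) (Sphere.Y i) z
      = -((Finsupp.single i (Blk.lam (rawExc 0) i.blk) + e • ins1 f i + e ^ 2 • ins2 f i).sum
          fun j a => a * Sphere.Y j z) := by
  have hd : ∀ (p : Pol) (S : M6) (a b : Fin 2 × Fin 3),
      DifferentiableAt ℝ (fun w => (reEv p w • S) a b) z := fun p S a b => by
    simp only [Matrix.smul_apply, smul_eq_mul]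
    exact ((contDiff_reEv p (n := 1)).differentiable one_ne_zero z).fun_mul (differentiableAt_const _)
  have hd' : ∀ (c : ℝ) (p : Pol) (S : M6) (a b : Fin 2 × Fin 3),
      DifferentiableAt ℝ (fun w => (c • (reEv p w • S)) a b) z := fun c p S a b => by
    simp only [Matrix.smul_apply (r := c), smul_eq_mul]
    exact (differentiableAt_const c).fun_mul (hd p S a b)
  have hY := Sphere.contDiff_Y i (n := 2)
  simp only [gram_ins_expand]
  rw [crossLap_add (fun a b => by
      simp only [Matrix.add_apply]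
      exact (differentiableAt_const _).fun_add (hd' e _ _ a b)) (hd' _ _ _) hY,
    crossLap_add (P := fun _ => gram (rawExc 0)) (fun a b => differentiableAt_const _) (hd' _ _ _) hY,
    crossLap_smul e (hd _ _) hY, crossLap_smul (e ^ 2) (hd _ _) hY, crossLap_gram,
    crossLap_ins _ _ i hz, crossLap_ins _ _ i hz, ins1, ins2]
  have hlin : ∀ (u v : St →₀ ℝ), (u + v).sum (fun j a => a * Sphere.Y j z) =
      u.sum (fun j a => a * Sphere.Y j z) + v.sum fun j a => a * Sphere.Y j z := fun u v =>
    Finsupp.sum_add_index' (fun j => zero_mul _) fun j a b => add_mul a b _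
  have hsm : ∀ (c : ℝ) (u : St →₀ ℝ), (c • u).sum (fun j a => a * Sphere.Y j z) =
      c * u.sum fun j a => a * Sphere.Y j z := fun c u => by
    rw [Finsupp.sum_smul_index' fun j => zero_mul _, Finsupp.mul_sum]
    simp only [smul_eq_mul, mul_assoc]
  rw [hlin, hlin, hsm, hsm, Finsupp.sum_single_index (zero_mul _)]
  ring

theorem abs_insEnt_le (p : Pol) (S : M6) (i j : St) :
    |insEnt p S i j| ≤ 4 * (supN p * absSum S) * muL (i.blk.level 0) * muL (j.blk.level 0) := by
  have h := abs_insEnt_comb_le p S (g := j.blk.level 0) (h := i.blk.level 0)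
    (Pi.single ⟨i, rfl⟩ 1) (Pi.single ⟨j, rfl⟩ 1)
  have hC : 0 ≤ supN p * absSum S := mul_nonneg (supN_spec p).1
    (Finset.sum_nonneg fun a _ => Finset.sum_nonneg fun b _ => abs_nonneg _)
  simp [Pi.single_apply, ite_pow] at h
  refine h.trans ?_
  have := mul_le_mul (sqrt_cas_le_muL (j.blk.level 0)) (sqrt_cas_le_muL (i.blk.level 0))
    (Real.sqrt_nonneg _) (by have := muL_pos (j.blk.level 0); positivity)
  calc supN p * absSum S * _ * _ = (supN p * absSum S) * (_ * _) := mul_assoc _ _ _
    _ ≤ (supN p * absSum S) * _ := mul_le_mul_of_nonneg_left this hC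
    _ = _ := by ring

/-- The rows of an insertion grow at most polynomially. -/
theorem insKer_bound (p : Pol) (S : M6) : ∃ K : ℝ, ∀ i : St,
    ((insKer p S i).sum fun j a => |a| * j.blk.mu ^ 4) ≤ K * i.blk.mu ^ 10 := by
  set N := band p
  set C := 4 * (supN p * absSum S)
  have hC : 0 ≤ C := mul_nonneg (by norm_num) (mul_nonneg (supN_spec p).1
    (Finset.sum_nonneg fun a _ => Finset.sum_nonneg fun b _ => abs_nonneg _))
  refine ⟨((2 * N + 1 : ℕ) : ℝ) ^ 2 * ((2 * N + 1 : ℕ) : ℝ) ^ 4 * (C * ((2 * N + 1 : ℕ) : ℝ))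
    * (2 ^ 4 * ((2 * N + 1 : ℕ) : ℝ) ^ 4), fun i => ?_⟩
  set g := i.blk.level 0
  set D : ℝ := ((2 * N + 1 : ℕ) : ℝ)
  have hg := one_le_muL g
  have hband : ∀ h ∈ band2 N g, muL h ≤ D * muL g := by
    intro h hh
    simp only [band2, Finset.mem_product, Finset.mem_Icc] at hh
    have h1 : (h.1 : ℝ) ≤ g.1 + N := by exact_mod_cast hh.1.2
    have h2 : (h.2 : ℝ) ≤ g.2 + N := by exact_mod_cast hh.2.2
    have h3 : (N : ℝ) ≤ N * muL g := le_mul_of_one_le_right (Nat.cast_nonneg _) hg
    simp only [D, muL] at h3 ⊢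
    push_cast
    linarith
  have hcard : ∀ h ∈ band2 N g, ((levSet 0 h).card : ℝ) ≤ (D * muL g) ^ 4 := by
    intro h hh
    rw [levSet, Finset.card_map, Finset.card_univ, Alg.card_fib h.1 h.2]
    simp only [Fintype.card_prod, Fintype.card_fin]
    push_cast
    have h1 : (0 : ℝ) ≤ h.1 := Nat.cast_nonneg _
    have h2 : (0 : ℝ) ≤ h.2 := Nat.cast_nonneg _
    have hb := hband h hh
    have hm : muL h = 1 + h.1 + h.2 := rfl
    have e1 : ((h.1 : ℝ) + 1) * ((h.1 : ℝ) + 1) ≤ (D * muL g) ^ 2 := by nlinarith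
    have e2 : ((h.2 : ℝ) + 1) * ((h.2 : ℝ) + 1) ≤ (D * muL g) ^ 2 := by nlinarith
    calc _ ≤ (D * muL g) ^ 2 * (D * muL g) ^ 2 :=
          mul_le_mul e1 e2 (by positivity) (sq_nonneg _)
      _ = _ := by ring
  rw [insKer, Finsupp.onFinset_sum _ fun j => by simp]
  refine (Finset.sum_le_card_nsmul _ _ (C * (D * muL g) * muL g * (2 * (D * muL g)) ^ 4)
    fun j hj => ?_).trans ?_
  · obtain ⟨h, hh, hj⟩ : ∃ h ∈ band2 N g, j.blk.level 0 = h := ⟨_, mem_bandStates.1 hj, rfl⟩
    have hb := hband h hh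
    refine mul_le_mul ?_ ?_ (by have := Blk.one_le_mu j.blk; positivity) ?_
    · refine (abs_insEnt_le p S i j).trans ?_
      rw [hj, show C * (D * muL g) * muL g = C * muL g * (D * muL g) by ring]
      exact mul_le_mul_of_nonneg_left hb (by have := muL_pos g; positivity)
    · have := (mu_le_muL j).trans (mul_le_mul_of_nonneg_left (hj ▸ hb) zero_le_two)
      exact pow_le_pow_left₀ (zero_le_one.trans (Blk.one_le_mu _)) this 4
    · have := muL_pos g; positivity
  · rw [nsmul_eq_mul]
    have hpos : 0 ≤ C * (D * muL g) * muL g * (2 * (D * muL g)) ^ 4 := by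
      have := muL_pos g; positivity
    refine le_trans (mul_le_mul_of_nonneg_right (?_ : _ ≤ D ^ 2 * (D * muL g) ^ 4) hpos) ?_
    · refine (Nat.cast_le.2 (card_bandStates_le N g)).trans ?_
      push_cast
      refine (Finset.sum_le_card_nsmul _ _ _ hcard).trans ?_
      rw [nsmul_eq_mul]
      exact mul_le_mul_of_nonneg_right (card_bandSet_le N g) (by positivity)
    calc D ^ 2 * (D * muL g) ^ 4 * (C * (D * muL g) * muL g * (2 * (D * muL g)) ^ 4)
        = D ^ 2 * D ^ 4 * (C * D) * (2 ^ 4 * D ^ 4) * muL g ^ 10 := by ring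
      _ ≤ _ := mul_le_mul_of_nonneg_left
          (pow_le_pow_left₀ (muL_pos g).le (muL_le_mu i) 10) (by positivity)

theorem ins_bound (f : ℕ) : ∃ K : ℝ, ∀ i : St,
    ((ins1 f i).sum fun j a => |a| * j.blk.mu ^ 4) ≤ K * i.blk.mu ^ 10 ∧
      ((ins2 f i).sum fun j a => |a| * j.blk.mu ^ 4) ≤ K * i.blk.mu ^ 10 := by
  obtain ⟨K, hK⟩ := insKer_bound (InsTensor.nilPol f) (InsTensor.symN (InsTensor.nilTen f))
  obtain ⟨L, hL⟩ := insKer_bound (nilPol2 f) (nilSq f)
  exact ⟨max K L, fun i => ⟨(hK i).trans (mul_le_mul_of_nonneg_right (le_max_left _ _)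
    (by have := Blk.one_le_mu i.blk; positivity)), (hL i).trans (mul_le_mul_of_nonneg_right
    (le_max_right _ _) (by have := Blk.one_le_mu i.blk; positivity))⟩⟩

end

end Vale.Agent.P225.Model
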