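import Vale.Agent.P225.Model.PieceModelInst
import Vale.Agent.P225.Loop.Keeps

/-!
P225, model: the insertions of the model do not act on the zero level.
-/

namespace Vale.Agent.P225.Model

noncomputable section

open scoped Classical in
open Sphere in
theorem insBlock_zero_col (p : Pol) (S : M6) (g : ℕ × ℕ) : insBlock p S g 0 = 0 := by
  refine norm_le_zero_iff.1 ((norm_insBlock_le p S g 0).trans (le_of_eq ?_))
  simp [Blk.cas]

/-- The model satisfies the hypothesis of `Loop/Keeps`. -/
theorem zeroCol_modelPM (s Nf : ℕ) : Loop.ZeroCol (modelPM s Nf) := by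
  intro f g
  show (modelIns s Nf f).O₁ g 0 = 0 ∧ (modelIns s Nf f).O₂ g 0 = 0
  unfold modelIns
  split_ifs with hf
  · constructor <;>
      simp [InsOp.weighted, InsOp.wBlock, nilOp, insOp, insBlock_zero_col]
  · exact ⟨rfl, rfl⟩

end

end Vale.Agent.P225.Model
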