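import Vale.Agent.P225.Model.Isos

/-!
P225, model fields (helper1): the cross Laplacian of an excursion tensor on the basis, as a finitely
supported matrix inside each level of its junction.
-/

namespace Vale.Agent.P225.Model

open scoped BigOperators ContDiff
open Set Matrix Finset

noncomputable section

/-- An inverse pull-back has the transposed matrix. -/
theorem M_inverse {T S : Sphere.Pullback} (h : ∀ x, S.g (T.g x) = x) (k i : St) :
    S.M k i = T.M i k := by
  have e : Sphere.evN (T.τ (S.τ (Sphere.Q i))) = Sphere.evN (Sphere.Q i) := by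
    funext x; rw [T.evN_τ, S.evN_τ, h]
  simp only [Sphere.Pullback.M, Sphere.cfQ]
  rw [← T.ip_τ, Sphere.ip_congr (p := T.τ (Sphere.Q k)) rfl e, ← Sphere.ip_conj (Sphere.Q i),
    Complex.conj_re]

/-- The matrix of an excursion tensor of weights `w` at the isometry `g` of `J`. -/
def isoEnt (J : Fin 3) (g : ℕ) (w : Fin 3 → ℝ) (i j : St) : ℝ :=
  ∑ k ∈ Sphere.levSet J (i.blk.level J), (Alg.isoJ J (isoIdx g)).M i k
    * Blk.lam w k.blk * (Alg.isoJ J (isoIdx g)).M j k

theorem isoEnt_eq_zero (J : Fin 3) (g : ℕ) (w : Fin 3 → ℝ) {i j : St}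
    (h : j.blk.level J ≠ i.blk.level J) : isoEnt J g w i j = 0 := by
  refine Finset.sum_eq_zero fun k hk => ?_
  rw [(Alg.isoJ_moves J (isoIdx g)).zero (Sphere.mem_levSet.1 hk) (j := j)
    fun hj => h (Sphere.mem_levSet.1 hj), mul_zero]

/-- The rows of `isoEnt`. -/
def isoKer (J : Fin 3) (g : ℕ) (w : Fin 3 → ℝ) (i : St) : St →₀ ℝ :=
  Finsupp.onFinset (Sphere.levSet J (i.blk.level J)) (isoEnt J g w i) fun j hj =>
    by_contra fun hn => hj (isoEnt_eq_zero J g w fun e => hn (Sphere.mem_levSet.2 e))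

theorem isoKer_apply (J : Fin 3) (g : ℕ) (w : Fin 3 → ℝ) (i j : St) :
    isoKer J g w i j = isoEnt J g w i j := rfl

theorem crossLap_sum {P : Sph → M6} {z : Sph} (hP : ∀ p q, DifferentiableAt ℝ (fun w => P w p q) z)
    {s : Finset St} (c : St → ℝ) {f : St → Sph → ℝ} (hf : ∀ k, ContDiff ℝ 2 (f k)) :
    crossLap P (fun w => ∑ k ∈ s, c k * f k w) z = ∑ k ∈ s, c k * crossLap P (f k) z := by
  have hd : ∀ k, Differentiable ℝ (f k) := fun k => (hf k).differentiable two_ne_zero
  have hX : ∀ k q, DifferentiableAt ℝ (xD q (f k)) z := fun k q =>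
    (contDiff_xD (m := 1) (hf k) le_rfl q).differentiable one_ne_zero z
  have e : ∀ q, xD q (fun w => ∑ k ∈ s, c k * f k w) = fun w => ∑ k ∈ s, c k * xD q (f k) w :=
    fun q => funext fun w => by
      rw [xD_fun_sum fun k _ => (differentiableAt_const _).fun_mul (hd k w)]
      refine Finset.sum_congr rfl fun k _ => ?_
      rw [xD_fun_mul (differentiableAt_const _) (hd k w), show xD q (fun _ => c k) w = 0 by
        simp [xD], zero_mul, zero_add]
  simp only [crossLap_eq, e]
  have e2 : ∀ p, (fun w => ∑ q, P w p q * ∑ k ∈ s, c k * xD q (f k) w)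
      = fun w => ∑ k ∈ s, c k * ∑ q, P w p q * xD q (f k) w := fun p => funext fun w => by
    simp only [Finset.mul_sum]
    rw [Finset.sum_comm]
    exact Finset.sum_congr rfl fun k _ => Finset.sum_congr rfl fun q _ => by ring
  simp only [e2]
  rw [Finset.sum_congr rfl fun k _ => Finset.mul_sum _ _ (c k), Finset.sum_comm (s := s)]
  refine Finset.sum_congr rfl fun p _ => ?_
  rw [xD_fun_sum fun k _ => (differentiableAt_const _).fun_mul
    (DifferentiableAt.fun_sum fun q _ => (hP p q).fun_mul (hX k q))]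
  refine Finset.sum_congr rfl fun k _ => ?_
  rw [xD_fun_mul (differentiableAt_const _)
      (DifferentiableAt.fun_sum fun q _ => (hP p q).fun_mul (hX k q)),
    show xD p (fun _ => c k) z = 0 by simp [xD], zero_mul, zero_add]

/-- The cross Laplacian of the transported tensor, on the basis. -/
theorem crossLap_iso (J : Fin 3) (g : ℕ) (w : Fin 3 → ℝ) (i : St) {z : Sph} (hz : OnS z) :
    crossLap (fun x => isoA J g x * gram w * (isoA J g x)ᵀ) (Sphere.Y i) z
      = -(isoKer J g w i).sum fun j a => a * Sphere.Y j z := by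
  set e := isoIdx g
  set F := isoM J e
  set T := Alg.isoJ J e
  set s := Sphere.levSet J (i.blk.level J)
  have hg : Differentiable ℝ F.g := F.diff_g
  have hY : ∀ k, ContDiff ℝ 2 fun v => Sphere.Y k (F.g v) := fun k =>
    (Sphere.contDiff_Y k).comp (F.smooth_g.of_le (WithTop.coe_le_coe.2 le_top))
  have hA : ∀ p q, DifferentiableAt ℝ (fun v => (isoA J g v * gram w * (isoA J g v)ᵀ) p q) z := by
    intro p q
    have h : ∀ p q, DifferentiableAt ℝ (fun v => isoA J g v p q) z := fun p q =>
      ((contDiffOn_isoA J g p q).differentiableOn (by simp)).differentiableAt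
        (isOpen_punct.mem_nhds hz.mem_punct)
    simp only [mul_apply, transpose_apply]
    exact DifferentiableAt.fun_sum fun r _ => (DifferentiableAt.fun_sum fun t _ =>
      (h p t).fun_mul (differentiableAt_const _)).fun_mul (h q r)
  have hexp : ∀ x, Sphere.Y i (Sphere.crd2 x)
      = ∑ k ∈ s, T.M i k * Sphere.Y k (F.g (Sphere.crd2 x)) := by
    intro x
    have h := (Alg.isoJInv J e).expand_on (i := i) (s := s)
      (fun k hk => (Alg.isoJInv_moves J e).zero rfl hk) (T.g x)
    rw [(Alg.isoJ_inverse J e).1] at h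
    rw [h]
    refine Finset.sum_congr rfl fun k _ => ?_
    rw [M_inverse (Alg.isoJ_inverse J e).1, pairs_isoM J e x]
  rw [crossLap_congr hz hA (fun p q => F.diff_conj (gram w) p q z)
    (fun v hv => by rw [isoA_of_onS J g hv]) (Sphere.contDiff_Y i)
    (ContDiff.sum fun k _ => contDiff_const.mul (hY k)) (fun v hv => ?_),
    crossLap_sum (F.diff_conj (gram w) · · z) _ hY]
  · obtain ⟨x, rfl⟩ := Sphere.exists_crd2 hz.1 hz.2
    have hk : ∀ k ∈ s, T.M i k * crossLap (fun v => F.A v * gram w * (F.A v)ᵀ)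
        (fun v => Sphere.Y k (F.g v)) (Sphere.crd2 x)
        = -∑ j ∈ s, T.M i k * Blk.lam w k.blk * T.M j k * Sphere.Y j (Sphere.crd2 x) := by
      intro k hk
      rw [F.crossLap_push (gram w) (Sphere.contDiff_Y k) hz, crossLap_gram, pairs_isoM J e x,
        T.expand_on (i := k) (s := s)
          (fun j hj => (Alg.isoJ_moves J e).zero (Sphere.mem_levSet.1 hk) hj) x,
        Finset.mul_sum, Finset.mul_sum, ← Finset.sum_neg_distrib]
      exact Finset.sum_congr rfl fun j _ => by ring
    rw [Finset.sum_congr rfl hk, isoKer, Finsupp.onFinset_sum _ fun j => zero_mul _,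
      Finset.sum_neg_distrib]
    congr 1
    rw [Finset.sum_comm]
    exact Finset.sum_congr rfl fun j _ => by rw [isoEnt, Finset.sum_mul]
  · obtain ⟨x, rfl⟩ := Sphere.exists_crd2 hv.1 hv.2
    exact hexp x

end

end Vale.Agent.P225.Model
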