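import Vale.Agent.P225.Loop.Corrector
import Vale.Agent.P225.Loop.IdealTools
import Vale.Agent.P225.Model.PieceModelInst
import Vale.Agent.P225.Alg.Model.Junction

/-!
P225, model fields (helper23): the generators of the corrector.  The limits of the excursions at the
junction `J3` in the frames of the model, seen as block diagonal matrices on the states of the
corrector, give all off diagonal units of the non-axis levels; their products of exponentials are
the products of exponentials on the non-axis levels, extended by the identity.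
-/

namespace Vale.Agent.P225.Loop

open Set NormedSpace
open scoped Matrix.Norms.L2Operator

noncomputable section

variable (W : Finset St) (Lv : Finset (ℕ × ℕ))

/-- Matrices on levels as block diagonal matrices on a set of states, zero off the levels. -/
def levBlock : LevAlg 0 Lv →ₗ[ℝ] Matrix (WSt W) (WSt W) ℝ where
  toFun A := Matrix.of fun y z =>
    if h : y.1.blk.level 0 = z.1.blk.level 0 ∧ z.1.blk.level 0 ∈ Lv then
      A ⟨_, h.2⟩ ⟨y.1, h.1⟩ ⟨z.1, rfl⟩ else 0
  map_add' A B := by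
    ext y z
    simp only [Matrix.of_apply, Matrix.add_apply]
    split_ifs <;> simp
  map_smul' r A := by
    ext y z
    simp only [Matrix.of_apply, Matrix.smul_apply, RingHom.id_apply]
    split_ifs <;> simp

variable {W Lv}

theorem levBlock_apply (A : LevAlg 0 Lv) {y z : WSt W} (L : Lv)
    (hy : y.1.blk.level 0 = L.1) (hz : z.1.blk.level 0 = L.1) :
    levBlock W Lv A y z = A L ⟨y.1, hy⟩ ⟨z.1, hz⟩ := by
  obtain ⟨L, hL⟩ := L
  dsimp only at hy hz
  subst hz
  exact dif_pos (⟨hy, hL⟩ : y.1.blk.level 0 = z.1.blk.level 0 ∧ z.1.blk.level 0 ∈ Lv)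

theorem levBlock_apply_ne (A : LevAlg 0 Lv) {y z : WSt W}
    (h : ¬(y.1.blk.level 0 = z.1.blk.level 0 ∧ z.1.blk.level 0 ∈ Lv)) :
    levBlock W Lv A y z = 0 :=
  dif_neg h

variable (hW : ∀ k : St, k.blk.level 0 ∈ Lv → k ∈ W)
include hW

theorem levBlock_mul (A B : LevAlg 0 Lv) :
    levBlock W Lv (A * B) = levBlock W Lv A * levBlock W Lv B := by
  classical
  ext y z
  rw [Matrix.mul_apply]
  by_cases h : y.1.blk.level 0 = z.1.blk.level 0 ∧ z.1.blk.level 0 ∈ Lv
  · set L : Lv := ⟨z.1.blk.level 0, h.2⟩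
    rw [levBlock_apply (A * B) L h.1 rfl, Pi.mul_apply, Matrix.mul_apply]
    refine Fintype.sum_of_injective (fun x : Fib 0 L.1 => (⟨x.1, hW x.1 (x.2.symm ▸ L.2)⟩ : WSt W))
      (fun a b e => Subtype.ext (Subtype.mk.inj e)) _ _ (fun x hx => ?_) fun x => ?_
    · rw [levBlock_apply_ne B (z := z), mul_zero]
      exact fun hx' => hx ⟨⟨x.1, hx'.1⟩, rfl⟩
    · rw [levBlock_apply A L h.1 x.2, levBlock_apply B L x.2 rfl]
  · rw [levBlock_apply_ne (A * B) h, Finset.sum_eq_zero]
    intro x _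
    by_cases h1 : x.1.blk.level 0 = z.1.blk.level 0 ∧ z.1.blk.level 0 ∈ Lv
    · rw [levBlock_apply_ne A (y := y) (z := x), zero_mul]
      exact fun h2 => h ⟨h2.1.trans h1.1, h1.2⟩
    · rw [levBlock_apply_ne B h1, mul_zero]

theorem levBlock_injective : Function.Injective (levBlock W Lv) := by
  intro A B h
  funext L
  ext i j
  have e := congrFun (congrFun h ⟨i.1, hW i.1 (i.2.symm ▸ L.2)⟩) ⟨j.1, hW j.1 (j.2.symm ▸ L.2)⟩
  rwa [levBlock_apply A L i.2 j.2, levBlock_apply B L i.2 j.2] at e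

/-- Extension by the identity off the levels. -/
def levExt : LevAlg 0 Lv →* Matrix (WSt W) (WSt W) ℝ where
  toFun u := levBlock W Lv (u - 1) + 1
  map_one' := by rw [sub_self, map_zero, zero_add]
  map_mul' u v := by
    rw [show u * v - 1 = (u - 1) * (v - 1) + (u - 1) + (v - 1) by noncomm_ring, map_add, map_add,
      levBlock_mul hW]
    noncomm_ring

theorem levExt_injective : Function.Injective (levExt hW) := fun _ _ h =>
  sub_left_injective (levBlock_injective hW (add_right_cancel h))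

omit hW in
theorem one_apply_fib (L : Lv) (i j : Fib 0 L.1) :
    (1 : LevAlg 0 Lv) L i j = if i.1 = j.1 then 1 else 0 := by
  rw [Pi.one_apply, Matrix.one_apply]
  simp only [Subtype.ext_iff]

theorem levExt_apply (u : LevAlg 0 Lv) (y z : WSt W) :
    levExt hW u y z = if z.1.blk.level 0 ∈ Lv then levBlock W Lv u y z
      else if y = z then 1 else 0 := by
  classical
  show levBlock W Lv (u - 1) y z + (1 : Matrix (WSt W) (WSt W) ℝ) y z = _
  rw [Matrix.one_apply]
  by_cases hz : z.1.blk.level 0 ∈ Lv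
  · rw [if_pos hz]
    by_cases hl : y.1.blk.level 0 = z.1.blk.level 0
    · rw [levBlock_apply (u - 1) ⟨_, hz⟩ hl rfl, levBlock_apply u ⟨_, hz⟩ hl rfl, Pi.sub_apply,
        Matrix.sub_apply, one_apply_fib]
      simp only [Subtype.ext_iff]
      ring
    · rw [levBlock_apply_ne _ fun h => hl h.1, levBlock_apply_ne _ fun h => hl h.1,
        if_neg (fun h => hl (by rw [h])), add_zero]
  · rw [if_neg hz, levBlock_apply_ne _ fun h => hz h.2, zero_add]

/-- The exponential of a block is the extension of the exponential. -/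
theorem exp_levBlock (X : LevAlg 0 Lv) : exp (levBlock W Lv X) = levExt hW (exp X) := by
  have : CompleteSpace (LevAlg 0 Lv) := FiniteDimensional.complete ℝ _
  have : CompleteSpace (Matrix (WSt W) (WSt W) ℝ) := FiniteDimensional.complete ℝ _
  let : NormedAlgebra ℚ (LevAlg 0 Lv) := NormedAlgebra.restrictScalars ℚ ℝ _
  let : NormedAlgebra ℚ (Matrix (WSt W) (WSt W) ℝ) := NormedAlgebra.restrictScalars ℚ ℝ _
  let f : (LevAlg 0 Lv × ℝ) →ₐ[ℝ] Matrix (WSt W) (WSt W) ℝ := AlgHom.ofLinearMap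
    { toFun := fun p => levBlock W Lv (p.1 - p.2 • 1) + p.2 • 1
      map_add' := fun p q => by
        simp only [Prod.fst_add, Prod.snd_add, add_smul, map_add, map_sub]
        abel
      map_smul' := fun r p => by
        simp only [Prod.smul_fst, Prod.smul_snd, smul_eq_mul, RingHom.id_apply, map_sub, map_smul,
          smul_add, smul_sub, mul_smul] }
    (by simp) fun p q => by
      show levBlock W Lv (p.1 * q.1 - (p.2 * q.2) • 1) + (p.2 * q.2) • 1 = _
      have e : p.1 * q.1 - (p.2 * q.2) • (1 : LevAlg 0 Lv) = (p.1 - p.2 • 1) * (q.1 - q.2 • 1)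
          + q.2 • (p.1 - p.2 • 1) + p.2 • (q.1 - q.2 • 1) := by
        simp only [sub_mul, mul_sub, smul_sub, smul_mul_assoc, mul_smul_comm, one_mul, mul_one,
          smul_smul, mul_comm q.2 p.2]
        abel
      rw [e, map_add, map_add, levBlock_mul hW, map_smul, map_smul]
      show _ = (levBlock W Lv (p.1 - p.2 • 1) + p.2 • 1) * (levBlock W Lv (q.1 - q.2 • 1) + q.2 • 1)
      simp only [add_mul, mul_add, smul_mul_assoc, mul_smul_comm, one_mul, mul_one]
      module
  have h := map_exp f f.toLinearMap.continuous_of_finiteDimensional (X, (0 : ℝ))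
  have e0 : f (X, 0) = levBlock W Lv X := by
    show levBlock W Lv (X - (0 : ℝ) • 1) + (0 : ℝ) • 1 = _
    simp
  rw [e0] at h
  rw [← h]
  show levBlock W Lv ((exp (X, (0 : ℝ))).1 - (exp (X, (0 : ℝ))).2 • 1)
    + (exp (X, (0 : ℝ))).2 • 1 = levBlock W Lv (exp X - 1) + 1
  rw [Prod.fst_exp, Prod.snd_exp, exp_zero, one_smul, one_smul]

/-- The monoid of blocks is the extension of the monoid on the levels. -/
theorem expMonoid_levBlock (S : Set (LevAlg 0 Lv)) :
    Alg.expMonoid (levBlock W Lv '' S) = (Alg.expMonoid S).map (levExt hW) := by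
  rw [Alg.expMonoid, Alg.expMonoid, MonoidHom.map_mclosure]
  congr 1
  ext g
  constructor
  · rintro ⟨_, ⟨X, hX, rfl⟩, t, rfl⟩
    exact ⟨exp (t • X), ⟨X, hX, t, rfl⟩, by rw [← map_smul, exp_levBlock hW]⟩
  · rintro ⟨_, ⟨X, hX, t, rfl⟩, rfl⟩
    exact ⟨_, ⟨X, hX, rfl⟩, t, by rw [← map_smul, exp_levBlock hW]⟩

/-- Invertible products of blocks come from invertible products on the levels. -/
theorem exists_unit_of_mem_levBlock (S : Set (LevAlg 0 Lv)) (g : (Matrix (WSt W) (WSt W) ℝ)ˣ)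
    (h : (g : Matrix (WSt W) (WSt W) ℝ) ∈ Alg.expMonoid (levBlock W Lv '' S))
    (h' : ((g⁻¹ : _) : Matrix (WSt W) (WSt W) ℝ) ∈ Alg.expMonoid (levBlock W Lv '' S)) :
    ∃ u : (LevAlg 0 Lv)ˣ, (u : LevAlg 0 Lv) ∈ Alg.expMonoid S ∧
      ((u⁻¹ : _) : LevAlg 0 Lv) ∈ Alg.expMonoid S ∧
      levExt hW u = g ∧ levExt hW ((u⁻¹ : _) : LevAlg 0 Lv) = ((g⁻¹ : _) : Matrix (WSt W) (WSt W) ℝ) := by
  rw [expMonoid_levBlock hW] at h h'
  obtain ⟨a, ha, ea⟩ := h
  obtain ⟨b, hb, eb⟩ := h'
  exact ⟨⟨a, b, levExt_injective hW (by rw [map_mul, ea, eb, Units.mul_inv, map_one]),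
    levExt_injective hW (by rw [map_mul, ea, eb, Units.inv_mul, map_one])⟩, ha, hb, ea, eb⟩

end

/-! ### The generators on the states of the corrector -/

section Corr

noncomputable section

/-- The non-axis levels of the corrector. -/
def corrBig (Mb : ℕ) : Finset (ℕ × ℕ) :=
  Finset.Icc 1 Mb ×ˢ Finset.Icc 1 Mb

theorem mem_corrBig {Mb : ℕ} {L : ℕ × ℕ} :
    L ∈ corrBig Mb ↔ bigLev L ∧ L.1 ≤ Mb ∧ L.2 ≤ Mb := by
  simp only [corrBig, bigLev, Finset.mem_product, Finset.mem_Icc]
  omega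

theorem corrBig_sub {Mb : ℕ} (k : St) (h : k.blk.level 0 ∈ corrBig Mb) : k ∈ corrW Mb :=
  mem_corrW.2 (mem_corrBig.1 h).2

/-- The limits of the excursions at the junction `J3`, numbered as in the programs. -/
def corrExcGens (Mb s : ℕ) : Set (LevAlg 0 (corrBig Mb)) :=
  range fun g : ℕ => excGen ((Model.modelFrame s 0 g).toFrame (corrBig Mb)) scaleInf

/-- The generators of the corrector. -/
def corrGens (Mb s : ℕ) : Set (Matrix (WSt (corrW Mb)) (WSt (corrW Mb)) ℝ) :=
  levBlock (corrW Mb) (corrBig Mb) '' corrExcGens Mb s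

theorem scaleInf_pos : 0 < scaleInf :=
  Real.sqrt_pos.2 (one_div_pos.2 (by norm_num [dMin]))

/-- On an axis level at `J3` the limit of an excursion has rate zero. -/
theorem excRate_axis (s₀ : ℝ) {V : Blk} (h : V.la = 0 ∨ V.lb = 0) : excRate 0 s₀ V = 0 := by
  obtain ⟨-, h1, h2, h3⟩ := V.2
  have e : V.lc = V.la + V.lb := by
    simp only [Blk.la, Blk.lb, Blk.lc] at h ⊢
    omega
  have hS : excS 0 V = excP 0 V := by
    rcases h with h | h <;>
      simp [excS, excP, Blk.lam, rotW, rawExc, Blk.cas, e, h]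
  rw [excRate, excGain, hS, sub_self, mul_zero, zero_mul, zero_div]

/-- On an axis level at `J3` the limit of an excursion vanishes, in any frame. -/
theorem excGen_axis {Lv : Finset (ℕ × ℕ)} {M : ℝ} (F : Frame 0 Lv M) (s₀ : ℝ) (L : Lv)
    (h : L.1.1 = 0 ∨ L.1.2 = 0) : excGen F s₀ L = 0 := by
  have e : (fun i : Fib 0 L.1 => -excRate 0 s₀ i.1.blk) = 0 := funext fun i => by
    rw [excRate_axis, neg_zero, Pi.zero_apply]
    have h1 : i.1.blk.la = L.1.1 := congrArg Prod.fst i.2
    have h2 : i.1.blk.lb = L.1.2 := congrArg Prod.snd i.2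
    rwa [h1, h2]
  show levMat 0 Lv F.Uu L * Matrix.diagonal (fun i : Fib 0 L.1 => -excRate 0 s₀ i.1.blk)
    * levMat 0 Lv F.Vu L = 0
  rw [e]
  simp

/-- **Generation.** The generators give the off diagonal units of every non-axis level; this is
`hgens` of `exists_corrector`. -/
theorem corr_hgens (Mb s : ℕ) :
    ∀ i j : WSt (corrW Mb), i ≠ j → i.1.blk.level 0 = j.1.blk.level 0 →
      bigLev (i.1.blk.level 0) →
      ∀ G : Submodule ℝ (Matrix (WSt (corrW Mb)) (WSt (corrW Mb)) ℝ),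
        corrGens Mb s ⊆ G → (∀ x ∈ G, ∀ y ∈ G, x * y - y * x ∈ G) →
        Matrix.single i j (1 : ℝ) ∈ G := by
  classical
  intro i j hij hl hbig G hsub hG
  have hW := corrBig_sub (Mb := Mb)
  let ρ := levBlock (corrW Mb) (corrBig Mb)
  let L : corrBig Mb := ⟨i.1.blk.level 0, mem_corrBig.2 ⟨hbig, mem_corrW.1 i.2⟩⟩
  let ii : Fib 0 L.1 := ⟨i.1, rfl⟩
  let jj : Fib 0 L.1 := ⟨j.1, hl.symm⟩
  have hne : ii ≠ jj := fun h => hij (Subtype.ext (congrArg (fun x : Fib 0 L.1 => x.1) h))
  let F : Alg.IsoIdx → Frame 0 (corrBig Mb) ((2 : ℝ) ^ (s + 1)) := fun e =>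
    (Model.modelFrame s 0 (Model.isoNum e)).toFrame (corrBig Mb)
  have hF : ∀ e, (F e).Uu = Sphere.Pullback.wOp (Alg.isoJ_moves 0 e) s := by
    intro e
    show Sphere.Pullback.wOp (Alg.isoJ_moves 0 (Model.isoIdx (Model.isoNum e))) (s : ℤ) = _
    rw [Model.isoIdx_isoNum]
  have key := Alg.bracket_mem_of_gen ρ
    (fun a b => by rw [map_sub, levBlock_mul hW, levBlock_mul hW]) ⊥
    (fun d hd b => by rw [(Submodule.mem_bot ℝ).1 hd]; exact Commute.zero_left _)
    (fun d hd d' _ => by rw [(Submodule.mem_bot ℝ).1 hd]; exact Commute.zero_left _)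
    (range fun e => excGen (F e) scaleInf) (levOnes 0 (corrBig Mb))
    (fun z hz b => levOnes_central hz b) G hG
    (fun x hx => by
      obtain ⟨e, rfl⟩ := hx
      exact ⟨0, Submodule.zero_mem _, by rw [add_zero]; exact hsub ⟨_, ⟨_, rfl⟩, rfl⟩⟩)
    (fun P hP hlie => Alg.excGen_generates
      (fun L hL => ⟨Nat.one_le_iff_ne_zero.2 (mem_corrBig.1 hL).1.1,
        Nat.one_le_iff_ne_zero.2 (mem_corrBig.1 hL).1.2⟩)
      scaleInf_pos s F hF P hP fun Y hY Z hZ => hlie Y (hP hY) Z hZ)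
    (Pi.single L (Matrix.single ii ii (1 : ℝ))) (Pi.single L (Matrix.single ii jj (1 : ℝ)))
  have e1 : (Pi.single L (Matrix.single ii ii (1 : ℝ)) : LevAlg 0 (corrBig Mb))
        * Pi.single L (Matrix.single ii jj (1 : ℝ))
      - Pi.single L (Matrix.single ii jj (1 : ℝ)) * Pi.single L (Matrix.single ii ii (1 : ℝ))
      = Pi.single L (Matrix.single ii jj (1 : ℝ)) := by
    rw [← Pi.single_mul, ← Pi.single_mul, Matrix.single_mul_single_same, mul_one,
      Matrix.single_mul_single_of_ne (1 : ℝ) ii jj ii hne.symm, Pi.single_zero, sub_zero]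
  have e2 : ρ (Pi.single L (Matrix.single ii jj (1 : ℝ))) = Matrix.single i j (1 : ℝ) := by
    ext y z
    by_cases h : y.1.blk.level 0 = z.1.blk.level 0 ∧ z.1.blk.level 0 ∈ corrBig Mb
    · rw [show ρ = levBlock (corrW Mb) (corrBig Mb) from rfl,
        levBlock_apply _ ⟨_, h.2⟩ h.1 rfl, Alg.single_one_apply]
      by_cases hL : (⟨z.1.blk.level 0, h.2⟩ : corrBig Mb) = L
      · have hent : ∀ (L' : corrBig Mb) (a b : Fib 0 L'.1), L' = L →
            (Pi.single L (Matrix.single ii jj (1 : ℝ)) : LevAlg 0 (corrBig Mb)) L' a b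
              = if a.1 = i.1 ∧ b.1 = j.1 then 1 else 0 := by
          intro L' a b hL'
          subst hL'
          rw [Pi.single_eq_same, Alg.single_one_apply]
          simp only [Subtype.ext_iff, ii, jj]
        rw [hent _ _ _ hL]
        simp only [Subtype.ext_iff]
      · rw [Pi.single_eq_of_ne hL, Matrix.zero_apply, if_neg]
        rintro ⟨rfl, rfl⟩
        exact hL (Subtype.ext hl.symm)
    · rw [show ρ = levBlock (corrW Mb) (corrBig Mb) from rfl, levBlock_apply_ne _ h,
        Alg.single_one_apply, if_neg]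
      rintro ⟨rfl, rfl⟩
      exact h ⟨hl, hl ▸ mem_corrBig.2 ⟨hbig, mem_corrW.1 y.2⟩⟩
  rw [e1, e2] at key
  exact key

/-- A product of exponentials of the generators is, on the non-axis levels, a product of
exponentials of limits of excursions, and the identity elsewhere. -/
theorem exists_corr_unit (Mb s : ℕ) (g : (Matrix (WSt (corrW Mb)) (WSt (corrW Mb)) ℝ)ˣ)
    (h : (g : Matrix (WSt (corrW Mb)) (WSt (corrW Mb)) ℝ) ∈ Alg.expMonoid (corrGens Mb s))
    (h' : ((g⁻¹ : _) : Matrix (WSt (corrW Mb)) (WSt (corrW Mb)) ℝ)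
      ∈ Alg.expMonoid (corrGens Mb s)) :
    ∃ u : (LevAlg 0 (corrBig Mb))ˣ, (u : LevAlg 0 (corrBig Mb)) ∈ Alg.expMonoid (corrExcGens Mb s) ∧
      ((u⁻¹ : _) : LevAlg 0 (corrBig Mb)) ∈ Alg.expMonoid (corrExcGens Mb s) ∧
      levExt (corrBig_sub (Mb := Mb)) u = g ∧ levExt (corrBig_sub (Mb := Mb)) ((u⁻¹ : _) : LevAlg 0 (corrBig Mb))
        = ((g⁻¹ : _) : Matrix (WSt (corrW Mb)) (WSt (corrW Mb)) ℝ) :=
  exists_unit_of_mem_levBlock corrBig_sub _ g h h'

end

end Corr

/-- A level-local operator on the levels, as entries. -/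
theorem levBlock_levMat {W : Finset St} {Lv : Finset (ℕ × ℕ)} {T : HSp →L[ℝ] HSp}
    (hT : LevelLocal 0 T) (y : WSt W) {z : WSt W} (hz : z.1.blk.level 0 ∈ Lv) :
    levBlock W Lv (levMat 0 Lv T) y z = facMat T y z := by
  rw [facMat, LevelLocal.apply_single hT ⟨_, hz⟩ ⟨z.1, rfl⟩ y.1]
  split_ifs with h
  · exact levBlock_apply _ ⟨_, hz⟩ h rfl
  · exact levBlock_apply_ne _ fun h' => h h'.1

end Vale.Agent.P225.Loop
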