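import Vale.Agent.P225.Model.FrameMap

/-!
The generators: right translations and inversion of one factor, and the cyclic relabelling
`(x, y) ↦ (y x̄, x̄)`, with their frame matrices.
-/

namespace Vale.Agent.P225.Model

open scoped BigOperators ContDiff
open Set Matrix Finset

noncomputable section

theorem contDiff_qprod {E : Type*} [NormedAddCommGroup E] [NormedSpace ℝ E] {f h : E → V4}
    {n : WithTop ℕ∞} (hf : ContDiff ℝ n f) (hh : ContDiff ℝ n h) :
    ContDiff ℝ n fun z => qprod (f z) (h z) := by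
  have cf := fun i => (contDiff_apply ℝ ℝ (i : Fin 4)).comp hf
  have ch := fun i => (contDiff_apply ℝ ℝ (i : Fin 4)).comp hh
  refine contDiff_pi.2 fun i => ?_
  fin_cases i <;> simp [qprod]
  · exact ((((cf 0).mul (ch 0)).sub ((cf 1).mul (ch 1))).sub ((cf 2).mul (ch 2))).sub
      ((cf 3).mul (ch 3))
  · exact ((((cf 0).mul (ch 1)).add ((cf 1).mul (ch 0))).add ((cf 2).mul (ch 3))).sub
      ((cf 3).mul (ch 2))
  · exact ((((cf 0).mul (ch 2)).sub ((cf 1).mul (ch 3))).add ((cf 2).mul (ch 0))).add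
      ((cf 3).mul (ch 1))
  · exact ((((cf 0).mul (ch 3)).add ((cf 1).mul (ch 2))).sub ((cf 2).mul (ch 1))).add
      ((cf 3).mul (ch 0))

/-- The product as a bilinear map. -/
def qprodB : V4 →L[ℝ] V4 →L[ℝ] V4 :=
  LinearMap.toContinuousLinearMap (LinearMap.toContinuousLinearMap.toLinearMap ∘ₗ
    LinearMap.mk₂ ℝ qprod
      (fun p p' q => by funext i; fin_cases i <;> simp [qprod] <;> ring)
      (fun c p q => by funext i; fin_cases i <;> simp [qprod] <;> ring)
      (fun p q q' => by funext i; fin_cases i <;> simp [qprod] <;> ring)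
      (fun c p q => by funext i; fin_cases i <;> simp [qprod] <;> ring))

theorem qprodB_apply (p q : V4) : qprodB p q = qprod p q := rfl

/-- The conjugate as a linear map. -/
def qconjL : V4 →L[ℝ] V4 :=
  LinearMap.toContinuousLinearMap
    { toFun := qconj
      map_add' := fun p q => by funext i; fin_cases i <;> simp [qconj] <;> ring
      map_smul' := fun c p => by funext i; fin_cases i <;> simp [qconj] }

theorem qconjL_apply (q : V4) : qconjL q = qconj q := rfl

/-- A map of one sphere with its frame matrix. -/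
structure FactorMap where
  g : V4 → V4
  B : V4 → Matrix (Fin 3) (Fin 3) ℝ
  smooth_g : ContDiff ℝ ∞ g
  smooth_B : ∀ σ r, ContDiff ℝ ∞ fun x => B x σ r
  maps : ∀ x, nsq x = 1 → nsq (g x) = 1
  push : ∀ x, nsq x = 1 → ∀ r,
    fderiv ℝ g x (∑ σ, B x σ r • Sphere.mulR σ x) = Sphere.mulR r (g x)
  str : ∀ x, nsq x = 1 → ∀ a b h, ∑ σ, ∑ τ, B x σ a * B x τ b * eps σ τ h
    + ∑ σ, B x σ a * fderiv ℝ (fun y => B y h b) x (Sphere.mulR σ x)
    - ∑ σ, B x σ b * fderiv ℝ (fun y => B y h a) x (Sphere.mulR σ x)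
    = ∑ f, B x h f * eps a b f
  div : ∀ x, nsq x = 1 → ∀ r, ∑ σ, fderiv ℝ (fun y => B y σ r) x (Sphere.mulR σ x) = 0

namespace FactorMap

/-- Right translation by a unit quaternion. -/
def right (c : V4) (hc : nsq c = 1) : FactorMap where
  g x := qprod x c
  B _ := rotM c
  smooth_g := contDiff_qprod contDiff_id contDiff_const
  smooth_B _ _ := contDiff_const
  maps x hx := by rw [nsq_qprod, hx, hc, one_mul]
  push x _ r := by
    have e : (fun y : V4 => qprod y c) = fun y => qprodB.flip c y := rfl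
    rw [e, (qprodB.flip c).fderiv, ContinuousLinearMap.flip_apply, qprodB_apply, qprod_field, hc,
      one_smul]
  str x _ a b h := by
    simp [det_rotM_cols, hc]
  div x _ r := by simp

/-- Inversion. -/
def inv : FactorMap where
  g := qconj
  B x := -(rotM x)ᵀ
  smooth_g := qconjL.contDiff
  smooth_B σ r := (contDiff_rotM r σ).neg
  maps x hx := by rw [nsq_qconj, hx]
  push x hx r := by
    have e : qconj = fun y => qconjL y := rfl
    rw [e, qconjL.fderiv, qconjL_apply]
    simp only [Matrix.neg_apply, transpose_apply]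
    rw [qconj_field, hx, one_smul]
    rfl
  str x hx a b h := by
    simp only [Matrix.neg_apply, transpose_apply, fderiv_fun_neg, _root_.neg_apply, fderiv_rotM]
    have h1 := det_rotM_rows x a b h
    have h2 := det_rotM_rows x b a h
    rw [hx, one_mul] at h1 h2
    have s1 : ∀ a b, ∑ σ, -rotM x a σ * -(∑ ρ, rotM x b ρ * eps σ h ρ)
        = -∑ σ, ∑ τ, rotM x a σ * rotM x b τ * eps σ τ h := by
      intro a b
      simp only [neg_mul_neg, Finset.mul_sum, ← Finset.sum_neg_distrib]
      exact Finset.sum_congr rfl fun σ _ => Finset.sum_congr rfl fun τ _ => by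
        rw [eps_swap σ h τ]; ring
    have s2 : ∑ ρ, rotM x ρ h * eps b a ρ = -∑ ρ, rotM x ρ h * eps a b ρ := by
      rw [← Finset.sum_neg_distrib]
      exact Finset.sum_congr rfl fun ρ _ => by rw [eps_swap' b a ρ]; ring
    rw [s1 a b, s1 b a]
    simp only [neg_mul, mul_neg, neg_neg, Finset.sum_neg_distrib]
    linear_combination h2 + s2
  div x _ r := by
    refine Finset.sum_eq_zero fun σ _ => ?_
    simp [fderiv_rotM, eps]

end FactorMap

theorem fderiv_comp_factor {E : Type*} [NormedAddCommGroup E] [NormedSpace ℝ E] (f : Fin 2)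
    {φ : V4 → E} {z : Sph} (hφ : DifferentiableAt ℝ φ (if f = 0 then z.1 else z.2))
    (k : Fin 2 × Fin 3) :
    fderiv ℝ (fun w : Sph => φ (if f = 0 then w.1 else w.2)) z (sfield k z)
      = if k.1 = f then fderiv ℝ φ (if f = 0 then z.1 else z.2)
          (Sphere.mulR k.2 (if f = 0 then z.1 else z.2)) else 0 := by
  obtain ⟨e, σ⟩ := k
  rw [sfield_eq]
  fin_cases f <;> simp at hφ ⊢
  · rw [show (fun w : Sph => φ w.1) = φ ∘ Prod.fst from rfl,
      (hφ.hasFDerivAt.comp z hasFDerivAt_fst).fderiv]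
    fin_cases e <;> simp [Sphere.Slot.field]
  · rw [show (fun w : Sph => φ w.2) = φ ∘ Prod.snd from rfl,
      (hφ.hasFDerivAt.comp z hasFDerivAt_snd).fderiv]
    fin_cases e <;> simp [Sphere.Slot.field]

namespace FrameMap

/-- The frame matrix of a product of two factor maps. -/
def prodA (φ ψ : FactorMap) (z : Sph) : M6 :=
  Matrix.of fun p q => if p.1 = q.1 then
    (if p.1 = 0 then φ.B z.1 p.2 q.2 else ψ.B z.2 p.2 q.2) else 0

/-- A product of two factor maps. -/
def prod (φ ψ : FactorMap) : FrameMap where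
  g z := (φ.g z.1, ψ.g z.2)
  A := prodA φ ψ
  smooth_g := (φ.smooth_g.comp contDiff_fst).prodMk (ψ.smooth_g.comp contDiff_snd)
  smooth_A p q := by
    simp only [prodA, of_apply]
    split_ifs
    · exact (φ.smooth_B _ _).comp contDiff_fst
    · exact (ψ.smooth_B _ _).comp contDiff_snd
    · exact contDiff_const
  maps z hz := ⟨φ.maps _ hz.1, ψ.maps _ hz.2⟩
  push z hz r := by
    have e := ((((φ.smooth_g.differentiable (by simp)) z.1).hasFDerivAt.comp z hasFDerivAt_fst).prodMk
      (((ψ.smooth_g.differentiable (by simp)) z.2).hasFDerivAt.comp z hasFDerivAt_snd)).fderiv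
    obtain ⟨f, σ⟩ := r
    rw [show (fun z : Sph => (φ.g z.1, ψ.g z.2)) = fun z => ((φ.g ∘ Prod.fst) z, (ψ.g ∘ Prod.snd) z)
      from rfl, e]
    have h1 : ∑ q, prodA φ ψ z q (f, σ) • sfield q z =
        if f = 0 then (∑ τ, φ.B z.1 τ σ • Sphere.mulR τ z.1, 0)
        else (0, ∑ τ, ψ.B z.2 τ σ • Sphere.mulR τ z.2) := by
      simp only [sfield_eq, prodA, of_apply, Fintype.sum_prod_type, Fin.sum_univ_two]
      fin_cases f <;> simp [Sphere.Slot.field, Prod.ext_iff, Prod.fst_sum, Prod.snd_sum]
    rw [h1, sfield_eq]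
    fin_cases f <;> simp [Sphere.Slot.field, φ.push _ hz.1, ψ.push _ hz.2]
  str z hz a b h := by
    obtain ⟨fa, a⟩ := a
    obtain ⟨fb, b⟩ := b
    obtain ⟨fh, h⟩ := h
    have hD : ∀ (fh : Fin 2) (p : Fin 2 × Fin 3) (i j : Fin 3) (g : Fin 2),
        xD p (fun w => prodA φ ψ w (fh, i) (g, j)) z = if fh = g ∧ p.1 = fh then
          (if fh = 0 then fderiv ℝ (fun y => φ.B y i j) z.1 (Sphere.mulR p.2 z.1)
            else fderiv ℝ (fun y => ψ.B y i j) z.2 (Sphere.mulR p.2 z.2)) else 0 := by
      intro fh p i j g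
      by_cases hg : fh = g
      · subst hg
        have e0 := fderiv_comp_factor 0 (φ := fun y => φ.B y i j)
          ((φ.smooth_B i j).differentiable (by simp) _) p (z := z)
        have e1 := fderiv_comp_factor 1 (φ := fun y => ψ.B y i j)
          ((ψ.smooth_B i j).differentiable (by simp) _) p (z := z)
        simp only [↓reduceIte, one_ne_zero] at e0 e1
        fin_cases fh <;> simp [xD, prodA, e0, e1]
      · simp [xD, prodA, hg]
    simp only [hD]
    simp only [cc_eq, prodA, of_apply, Fintype.sum_prod_type, Fin.sum_univ_two]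
    have k0 := φ.str _ hz.1 a b h
    have k1 := ψ.str _ hz.2 a b h
    fin_cases fa <;> fin_cases fb <;> fin_cases fh <;> simp <;> first | exact k0 | exact k1
  div z hz r := by
    obtain ⟨f, r⟩ := r
    have hD : ∀ (p : Fin 2 × Fin 3), xD p (fun w => prodA φ ψ w p (f, r)) z = if p.1 = f then
          (if f = 0 then fderiv ℝ (fun y => φ.B y p.2 r) z.1 (Sphere.mulR p.2 z.1)
            else fderiv ℝ (fun y => ψ.B y p.2 r) z.2 (Sphere.mulR p.2 z.2)) else 0 := by
      rintro ⟨e, σ⟩
      by_cases hg : e = f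
      · subst hg
        have e0 := fderiv_comp_factor 0 (φ := fun y => φ.B y σ r)
          ((φ.smooth_B σ r).differentiable (by simp) _) (e, σ) (z := z)
        have e1 := fderiv_comp_factor 1 (φ := fun y => ψ.B y σ r)
          ((ψ.smooth_B σ r).differentiable (by simp) _) (e, σ) (z := z)
        simp only [↓reduceIte, one_ne_zero] at e0 e1
        fin_cases e <;> simp at e0 e1 <;> simp [xD, prodA, e0, e1]
      · simp [xD, prodA, hg]
    simp only [hD, Fintype.sum_prod_type, Fin.sum_univ_two]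
    fin_cases f <;> simp [φ.div _ hz.1, ψ.div _ hz.2]

/-- The scalar part of the frame matrix of the cyclic map. -/
def cycK : Matrix (Fin 2) (Fin 2) ℝ := !![0, -1; 1, -1]

/-- The frame matrix of the cyclic map. -/
def cycA (z : Sph) : M6 := Matrix.of fun p q => cycK p.1 q.1 * rotM z.1 q.2 p.2

theorem xD_cycA (p : Fin 2 × Fin 3) (i j : Fin 2 × Fin 3) (z : Sph) :
    xD p (fun w => cycA w i j) z = cycK i.1 j.1 *
      (if p.1 = 0 then ∑ ρ, rotM z.1 j.2 ρ * eps p.2 i.2 ρ else 0) := by
  have e := fderiv_comp_factor 0 (φ := fun y => cycK i.1 j.1 * rotM y j.2 i.2)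
    (z := z) ((differentiableAt_const _).fun_mul
      ((contDiff_rotM (n := 1) j.2 i.2).differentiable one_ne_zero _)) p
  simp only [↓reduceIte] at e
  show fderiv ℝ (fun w => cycA w i j) z (sfield p z) = _
  simp only [cycA, of_apply]
  rw [e]
  split_ifs
  · rw [fderiv_const_mul ((contDiff_rotM (n := 1) j.2 i.2).differentiable one_ne_zero _)]
    simp [fderiv_rotM]
  · simp

/-- The cyclic map. -/
def cyc : FrameMap where
  g z := (qprod z.2 (qconj z.1), qconj z.1)
  A := cycA
  smooth_g := (contDiff_qprod contDiff_snd (qconjL.contDiff.comp contDiff_fst)).prodMk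
    (qconjL.contDiff.comp contDiff_fst)
  smooth_A p q := contDiff_const.mul ((contDiff_rotM q.2 p.2).comp contDiff_fst)
  maps z hz := ⟨by
    show nsq _ = 1
    rw [nsq_qprod, nsq_qconj, show nsq z.1 = 1 from hz.1, show nsq z.2 = 1 from hz.2, one_mul],
    by show nsq _ = 1; rw [nsq_qconj]; exact hz.1⟩
  push z hz r := by
    have h2 : HasFDerivAt (fun w : Sph => qconjL w.1) (qconjL.comp (ContinuousLinearMap.fst ℝ V4 V4)) z :=
      qconjL.hasFDerivAt.comp z hasFDerivAt_fst
    have h1 := qprodB.hasFDerivAt_of_bilinear (hasFDerivAt_snd (𝕜 := ℝ) (p := z)) h2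
    rw [show (fun z : Sph => (qprod z.2 (qconj z.1), qconj z.1)) =
      fun w : Sph => (qprodB w.2 (qconjL w.1), qconjL w.1) from rfl, (h1.prodMk h2).fderiv]
    obtain ⟨f, σ⟩ := r
    have n1 : nsq z.1 = 1 := hz.1
    have e1 : qconjL (∑ τ, rotM z.1 σ τ • Sphere.mulR τ z.1) = -Sphere.mulR σ (qconj z.1) := by
      have e := qconj_field z.1 σ
      rw [n1, one_smul] at e
      rw [← e, qconjL_apply, ← qconjL_apply, ← qconjL_apply, ← map_neg, ← Finset.sum_neg_distrib]
      simp only [neg_smul, neg_neg]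
    have e2 : qprodB (∑ τ, rotM z.1 σ τ • Sphere.mulR τ z.2) (qconjL z.1)
        = Sphere.mulR σ (qprod z.2 (qconj z.1)) := by
      have e := qprod_field (qconj z.1) z.2 σ
      rw [nsq_qconj, n1, one_smul] at e
      simpa only [rotM_qconj, transpose_apply, qprodB_apply, qconjL_apply] using e
    have hv : ∑ q, cycA z q (f, σ) • sfield q z =
        (cycK 0 f • ∑ τ, rotM z.1 σ τ • Sphere.mulR τ z.1,
          cycK 1 f • ∑ τ, rotM z.1 σ τ • Sphere.mulR τ z.2) := by
      simp [Fintype.sum_prod_type, Fin.sum_univ_two, cycA, sfield_eq, Sphere.Slot.field,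
        Finset.smul_sum, smul_smul, Prod.ext_iff, Prod.fst_sum, Prod.snd_sum]
    rw [hv, sfield_eq]
    have e3 : qprodB z.2 (Sphere.mulR σ (qconj z.1))
        = Sphere.mulR σ (qprod z.2 (qconj z.1)) := by rw [qprodB_apply, qprod_mulR]
    simp only [ContinuousLinearMap.prod_apply, _root_.add_apply,
      ContinuousLinearMap.comp_apply, ContinuousLinearMap.coe_fst', ContinuousLinearMap.coe_snd',
      ContinuousLinearMap.precompR_apply, ContinuousLinearMap.precompL_apply, map_smul,
      _root_.smul_apply, map_neg, e1, e2, e3]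
    have z1 : qprod z.2 0 = 0 := map_zero (qprodB z.2)
    fin_cases f <;>
      simp [cycK, Sphere.Slot.field, e1, e2, e3, qprod_mulR, qprodB_apply, z1]
  str z hz a b h := by
    obtain ⟨fa, a⟩ := a
    obtain ⟨fb, b⟩ := b
    obtain ⟨fh, h⟩ := h
    set E : Fin 3 → Fin 3 → ℝ := fun a b => ∑ ρ, rotM z.1 ρ h * eps a b ρ with hE
    have h1 : ∀ a b, ∑ σ, ∑ τ, rotM z.1 a σ * rotM z.1 b τ * eps σ τ h = E a b := fun a b => by
      rw [det_rotM_rows, show nsq z.1 = 1 from hz.1, one_mul]
    have s2 : E b a = -E a b := by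
      rw [hE, ← Finset.sum_neg_distrib]
      exact Finset.sum_congr rfl fun ρ _ => by rw [eps_swap' b a ρ]; ring
    have hY : ∀ (a b : Fin 3) (fa fb : Fin 2),
        ∑ p, cycA z p (fa, a) * xD p (fun w => cycA w (fh, h) (fb, b)) z
          = -(cycK 0 fa * cycK fh fb * E a b) := by
      intro a b fa fb
      simp only [xD_cycA, Fintype.sum_prod_type, Fin.sum_univ_two, ↓reduceIte, one_ne_zero,
        mul_zero, Finset.sum_const_zero, add_zero]
      rw [← h1]
      simp only [cycA, of_apply, Finset.mul_sum, ← Finset.sum_neg_distrib]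
      exact Finset.sum_congr rfl fun σ _ => Finset.sum_congr rfl fun τ _ => by
        rw [eps_swap σ h τ]; ring
    have hQ : ∑ p, ∑ q, cycA z p (fa, a) * cycA z q (fb, b) * cc p q (fh, h)
        = cycK fh fa * cycK fh fb * E a b := by
      simp only [Fintype.sum_prod_type, Fin.sum_univ_two, cc_eq]
      rw [← h1]
      fin_cases fh <;> simp only [Fin.zero_eta, Fin.mk_one, Fin.isValue, one_ne_zero, zero_ne_one,
        and_self, and_false, false_and, ↓reduceIte, mul_zero, Finset.sum_const_zero, add_zero,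
        zero_add, cycA, of_apply, Finset.mul_sum] <;>
        exact Finset.sum_congr rfl fun σ _ => Finset.sum_congr rfl fun τ _ => by ring
    have hR : ∑ f, cycA z (fh, h) f * cc (fa, a) (fb, b) f
        = if fa = fb then cycK fh fb * E a b else 0 := by
      simp only [Fintype.sum_prod_type, Fin.sum_univ_two, cc_eq, hE, cycA, of_apply]
      fin_cases fa <;> fin_cases fb <;> simp [Finset.mul_sum, mul_assoc]
    rw [hQ, hY a b fa fb, hY b a fb fa, hR, s2]
    fin_cases fa <;> fin_cases fb <;> fin_cases fh <;> simp [cycK] <;> ring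
  div z _ r := by
    simp only [xD_cycA, Fintype.sum_prod_type, Fin.sum_univ_two]
    simp [eps, Fin.sum_univ_three]

end FrameMap

end

end Vale.Agent.P225.Model
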