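import Vale.Agent.P225.Assembly.Modes
import Vale.Agent.P225.Metric.Local
import Vale.Agent.P225.Sphere.Deriv

/-!
Calculus along the six fields on the product of the unit spheres: only the values on the spheres
matter, and a radial extension has the same derivatives.
-/

namespace Vale.Agent.P225.Model

open scoped BigOperators ContDiff
open Set Matrix

noncomputable section

/-- The product of the unit spheres. -/
def OnS (z : Sph) : Prop := (∑ i, z.1 i ^ 2 = 1) ∧ ∑ i, z.2 i ^ 2 = 1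

theorem OnS.mem_punct {z : Sph} (h : OnS z) : z ∈ punct := by
  constructor <;> intro e
  · simpa [e] using h.1
  · simpa [e] using h.2

theorem onS_crd2 (x : Sphere.N2) : OnS (Sphere.crd2 x) :=
  ⟨Sphere.sum_crd_sq x.1, Sphere.sum_crd_sq x.2⟩

theorem sfield_eq (k : Fin 2 × Fin 3) (z : Sph) :
    sfield k z = (Sphere.Slot.R k.1).field k.2 z := by
  obtain ⟨f, σ⟩ := k
  have h : ∀ q, qmul σ *ᵥ q = Sphere.mulR σ q := fun q => by
    funext i
    fin_cases σ <;> fin_cases i <;>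
      simp [qmul, Sphere.mulR, mulVec, dotProduct, Fin.sum_univ_four]
  fin_cases f <;> simp [sfield, Sphere.Slot.field, h]

/-- The derivative along a field. -/
def xD (k : Fin 2 × Fin 3) (f : Sph → ℝ) (z : Sph) : ℝ := fderiv ℝ f z (sfield k z)

theorem crossLap_eq (P : Sph → M6) (Φ : Sph → ℝ) (z : Sph) :
    crossLap P Φ z = ∑ p, xD p (fun w => ∑ q, P w p q * xD q Φ w) z := rfl

/-- The rotation through `z` along a field. -/
def flow (k : Fin 2 × Fin 3) (z : Sph) (t : ℝ) : Sph :=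
  if k.1 = 0 then (Real.cos t • z.1 + Real.sin t • Sphere.mulR k.2 z.1, z.2)
  else (z.1, Real.cos t • z.2 + Real.sin t • Sphere.mulR k.2 z.2)

theorem flow_zero (k : Fin 2 × Fin 3) (z : Sph) : flow k z 0 = z := by
  unfold flow; split_ifs <;> simp

theorem sum_sq_rot (u : Fin 3) (q : Fin 4 → ℝ) (t : ℝ) :
    ∑ i, (Real.cos t • q + Real.sin t • Sphere.mulR u q) i ^ 2 = ∑ i, q i ^ 2 := by
  have h := Real.cos_sq_add_sin_sq t
  simp only [Fin.sum_univ_four, Pi.add_apply, Pi.smul_apply, smul_eq_mul]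
  fin_cases u <;> simp [Sphere.mulR] <;>
    linear_combination (q 0 ^ 2 + q 1 ^ 2 + q 2 ^ 2 + q 3 ^ 2) * h

theorem OnS.flow {z : Sph} (h : OnS z) (k : Fin 2 × Fin 3) (t : ℝ) : OnS (flow k z t) := by
  unfold Model.flow OnS
  split_ifs <;> simp only [sum_sq_rot] <;> exact h

theorem hasDerivAt_flow (k : Fin 2 × Fin 3) (z : Sph) :
    HasDerivAt (flow k z) (sfield k z) 0 := by
  have key : ∀ v w : Fin 4 → ℝ,
      HasDerivAt (fun t => Real.cos t • v + Real.sin t • w) w 0 := by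
    intro v w
    simpa using ((Real.hasDerivAt_cos (0 : ℝ)).smul_const v).fun_add
      ((Real.hasDerivAt_sin (0 : ℝ)).smul_const w)
  rw [sfield_eq]
  unfold flow
  obtain ⟨f, σ⟩ := k
  fin_cases f <;> simp [Sphere.Slot.field]
  · exact (key _ _).prodMk (hasDerivAt_const (0 : ℝ) z.2)
  · exact (hasDerivAt_const (0 : ℝ) z.1).prodMk (key _ _)

/-- Derivatives along the fields at the spheres depend only on the values there. -/
theorem fderiv_congr_onS {E : Type*} [NormedAddCommGroup E] [NormedSpace ℝ E] {f h : Sph → E}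
    {z : Sph} (hz : OnS z) (hf : DifferentiableAt ℝ f z) (hh : DifferentiableAt ℝ h z)
    (e : ∀ w, OnS w → f w = h w) (k : Fin 2 × Fin 3) :
    fderiv ℝ f z (sfield k z) = fderiv ℝ h z (sfield k z) := by
  have h0 : z = flow k z 0 := (flow_zero k z).symm
  have h1 := hf.hasFDerivAt.comp_hasDerivAt_of_eq (0 : ℝ) (hasDerivAt_flow k z) h0
  have h2 := hh.hasFDerivAt.comp_hasDerivAt_of_eq (0 : ℝ) (hasDerivAt_flow k z) h0
  rw [show f ∘ flow k z = h ∘ flow k z from funext fun t => e _ (hz.flow k t)] at h1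
  exact h1.unique h2

theorem xD_congr {f h : Sph → ℝ} {z : Sph} (hz : OnS z) (hf : DifferentiableAt ℝ f z)
    (hh : DifferentiableAt ℝ h z) (e : ∀ w, OnS w → f w = h w) (k : Fin 2 × Fin 3) :
    xD k f z = xD k h z := fderiv_congr_onS hz hf hh e k

/-- A vector on its unit sphere. -/
def nz (q : Fin 4 → ℝ) : Fin 4 → ℝ :=
  if q = 0 then ![1, 0, 0, 0] else (Real.sqrt (∑ i, q i ^ 2))⁻¹ • q

/-- The radial retraction onto the spheres. -/
def nz2 (z : Sph) : Sph := (nz z.1, nz z.2)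

theorem sum_sq_pos {q : Fin 4 → ℝ} (h : q ≠ 0) : 0 < ∑ i, q i ^ 2 := by
  obtain ⟨i, hi⟩ := Function.ne_iff.1 h
  exact Finset.sum_pos' (fun j _ => sq_nonneg _) ⟨i, Finset.mem_univ i, by
    have : q i ≠ 0 := hi
    positivity⟩

theorem sum_sq_nz (q : Fin 4 → ℝ) : ∑ i, nz q i ^ 2 = 1 := by
  unfold nz
  split_ifs with h
  · simp [Fin.sum_univ_four]
  · simp only [Pi.smul_apply, smul_eq_mul, mul_pow, ← Finset.mul_sum, inv_pow,
      Real.sq_sqrt (sum_sq_pos h).le]
    exact inv_mul_cancel₀ (sum_sq_pos h).ne'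

theorem onS_nz2 (z : Sph) : OnS (nz2 z) := ⟨sum_sq_nz _, sum_sq_nz _⟩

theorem nz_of_unit {q : Fin 4 → ℝ} (h : ∑ i, q i ^ 2 = 1) : nz q = q := by
  have h0 : q ≠ 0 := fun e => by simp [e] at h
  rw [nz, if_neg h0, h, Real.sqrt_one, inv_one, one_smul]

theorem nz2_eq {z : Sph} (h : OnS z) : nz2 z = z := Prod.ext (nz_of_unit h.1) (nz_of_unit h.2)

theorem contDiffOn_nz2 {n : WithTop ℕ∞} : ContDiffOn ℝ n nz2 punct := by
  have key : ContDiffOn ℝ n (fun q : Fin 4 → ℝ => (Real.sqrt (∑ i, q i ^ 2))⁻¹ • q) {q | q ≠ 0} := by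
    refine ContDiffOn.smul (ContDiffOn.inv (ContDiffOn.sqrt ?_ fun q hq => (sum_sq_pos hq).ne')
      fun q hq => (Real.sqrt_pos.2 (sum_sq_pos hq)).ne') contDiffOn_id
    exact (ContDiff.sum fun i _ => (contDiff_apply ℝ ℝ i).pow 2).contDiffOn
  refine ContDiffOn.prodMk ?_ ?_
  · exact (key.comp contDiff_fst.contDiffOn fun z hz => hz.1).congr fun z hz => by
      simp [nz, if_neg hz.1]
  · exact (key.comp contDiff_snd.contDiffOn fun z hz => hz.2).congr fun z hz => by
      simp [nz, if_neg hz.2]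

theorem nz2_flow {z : Sph} (hz : z ∈ punct) (k : Fin 2 × Fin 3) (t : ℝ) :
    nz2 (flow k z t) = flow k (nz2 z) t := by
  have key : ∀ (u : Fin 3) (q : Fin 4 → ℝ), q ≠ 0 →
      nz (Real.cos t • q + Real.sin t • Sphere.mulR u q) =
        Real.cos t • nz q + Real.sin t • Sphere.mulR u (nz q) := by
    intro u q hq
    have hs := sum_sq_rot u q t
    have h0 : Real.cos t • q + Real.sin t • Sphere.mulR u q ≠ 0 := fun e => by
      rw [e] at hs
      simp at hs
      exact (sum_sq_pos hq).ne hs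
    rw [nz, nz, if_neg h0, if_neg hq, hs]
    have hL : ∀ c : ℝ, Sphere.mulR u (c • q) = c • Sphere.mulR u q := fun c => by
      funext i; fin_cases u <;> fin_cases i <;> simp [Sphere.mulR]
    rw [hL]
    module
  obtain ⟨f, σ⟩ := k
  fin_cases f <;> simp [flow, nz2, key, hz.1, hz.2]

/-- The retraction commutes with the fields. -/
theorem fderiv_nz2 {z : Sph} (hz : z ∈ punct) (k : Fin 2 × Fin 3) :
    fderiv ℝ nz2 z (sfield k z) = sfield k (nz2 z) := by
  have hd : DifferentiableAt ℝ nz2 z :=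
    ((contDiffOn_nz2 (n := 1)).differentiableOn one_ne_zero).differentiableAt
      (isOpen_punct.mem_nhds hz)
  have h1 := hd.hasFDerivAt.comp_hasDerivAt_of_eq (0 : ℝ) (hasDerivAt_flow k z) (flow_zero k z).symm
  rw [show nz2 ∘ flow k z = flow k (nz2 z) from funext (nz2_flow hz k)] at h1
  exact h1.unique (hasDerivAt_flow k (nz2 z))

theorem xD_comp_nz2 {f : Sph → ℝ} (hf : Differentiable ℝ f) {z : Sph} (hz : z ∈ punct)
    (k : Fin 2 × Fin 3) : xD k (fun w => f (nz2 w)) z = xD k f (nz2 z) := by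
  have hd : DifferentiableAt ℝ nz2 z :=
    ((contDiffOn_nz2 (n := 1)).differentiableOn one_ne_zero).differentiableAt
      (isOpen_punct.mem_nhds hz)
  have e := ((hf (nz2 z)).hasFDerivAt.comp z hd.hasFDerivAt).fderiv
  rw [xD, show (fun w => f (nz2 w)) = f ∘ nz2 from rfl, e, ContinuousLinearMap.comp_apply,
    fderiv_nz2 hz]
  rfl

theorem contDiff_xD {f : Sph → ℝ} {m n : WithTop ℕ∞} (hf : ContDiff ℝ n f) (h : m + 1 ≤ n)
    (k : Fin 2 × Fin 3) : ContDiff ℝ m (xD k f) :=
  (hf.fderiv_right h).clm_apply (contDiff_sfield k)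

/-- The cross Laplacian at the spheres depends only on the values there. -/
theorem crossLap_congr {P P' : Sph → M6} {Φ Ψ : Sph → ℝ} {z : Sph} (hz : OnS z)
    (hP : ∀ p q, DifferentiableAt ℝ (fun w => P w p q) z)
    (hP' : ∀ p q, DifferentiableAt ℝ (fun w => P' w p q) z) (eP : ∀ w, OnS w → P w = P' w)
    (hΦ : ContDiff ℝ 2 Φ) (hΨ : ContDiff ℝ 2 Ψ) (eΦ : ∀ w, OnS w → Φ w = Ψ w) :
    crossLap P Φ z = crossLap P' Ψ z := by
  simp only [crossLap_eq]
  refine Finset.sum_congr rfl fun p _ => xD_congr hz ?_ ?_ (fun w hw => ?_) p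
  · exact DifferentiableAt.fun_sum fun q _ =>
      (hP p q).fun_mul ((contDiff_xD (m := 1) hΦ le_rfl q).differentiable one_ne_zero z)
  · exact DifferentiableAt.fun_sum fun q _ =>
      (hP' p q).fun_mul ((contDiff_xD (m := 1) hΨ le_rfl q).differentiable one_ne_zero z)
  · refine Finset.sum_congr rfl fun q _ => ?_
    rw [eP w hw, xD_congr hw (hΦ.differentiable two_ne_zero w) (hΨ.differentiable two_ne_zero w)
      eΦ q]

/-- The structure constants of the six fields. -/
def cc (p q h : Fin 2 × Fin 3) : ℝ := baseStruct (P225.idx p) (P225.idx q) (P225.idx h)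

end

end Vale.Agent.P225.Model
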