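import Vale.Agent.P225.Model.Rot
import Vale.Agent.P225.Sphere.Real

/-!
Maps of the cross-section with their frame matrices: composition, the transformation rule of the
cross Laplacian and the eigenvalues of the homogeneous one.
-/

namespace Vale.Agent.P225.Model

open scoped BigOperators ContDiff
open Set Matrix Finset

noncomputable section

/-- A map of the spheres and the matrix expressing the pulled back fields in the fields. -/
structure FrameMap where
  g : Sph → Sph
  A : Sph → M6
  smooth_g : ContDiff ℝ ∞ g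
  smooth_A : ∀ p q, ContDiff ℝ ∞ fun z => A z p q
  maps : ∀ z, OnS z → OnS (g z)
  push : ∀ z, OnS z → ∀ r, fderiv ℝ g z (∑ q, A z q r • sfield q z) = sfield r (g z)
  str : ∀ z, OnS z → ∀ a b h, ∑ p, ∑ q, A z p a * A z q b * cc p q h
    + ∑ p, A z p a * xD p (fun w => A w h b) z - ∑ p, A z p b * xD p (fun w => A w h a) z
    = ∑ f, A z h f * cc a b f
  div : ∀ z, OnS z → ∀ r, ∑ p, xD p (fun w => A w p r) z = 0

theorem xD_fun_mul {f h : Sph → ℝ} {z : Sph} (hf : DifferentiableAt ℝ f z)
    (hh : DifferentiableAt ℝ h z) (k : Fin 2 × Fin 3) :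
    xD k (fun w => f w * h w) z = xD k f z * h z + f z * xD k h z := by
  simp only [xD, fderiv_fun_mul hf hh, _root_.add_apply, _root_.smul_apply, smul_eq_mul]
  ring

theorem xD_fun_sum {ι : Type*} {s : Finset ι} {f : ι → Sph → ℝ} {z : Sph}
    (hf : ∀ i ∈ s, DifferentiableAt ℝ (f i) z) (k : Fin 2 × Fin 3) :
    xD k (fun w => ∑ i ∈ s, f i w) z = ∑ i ∈ s, xD k (f i) z := by
  simp [xD, fderiv_fun_sum hf]

namespace FrameMap

variable (T S : FrameMap)

theorem diff_A (p q : Fin 2 × Fin 3) : Differentiable ℝ fun z => T.A z p q :=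
  (T.smooth_A p q).differentiable (by simp)

theorem diff_g : Differentiable ℝ T.g := T.smooth_g.differentiable (by simp)

/-- The pulled back field differentiates a composition by the field. -/
theorem sum_xD_comp {f : Sph → ℝ} {z : Sph} (hz : OnS z) (hf : DifferentiableAt ℝ f (T.g z))
    (r : Fin 2 × Fin 3) : ∑ q, T.A z q r * xD q (fun w => f (T.g w)) z = xD r f (T.g z) := by
  have e := (hf.hasFDerivAt.comp z (T.diff_g z).hasFDerivAt).fderiv
  calc ∑ q, T.A z q r * xD q (fun w => f (T.g w)) z
      = fderiv ℝ f (T.g z) (fderiv ℝ T.g z (∑ q, T.A z q r • sfield q z)) := by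
        simp only [map_sum, map_smul, smul_eq_mul, xD]
        rw [show (fun w => f (T.g w)) = f ∘ T.g from rfl, e]
        rfl
    _ = _ := by rw [T.push z hz]; rfl

/-- Composition: first `T`, then `S`. -/
def comp : FrameMap where
  g z := S.g (T.g z)
  A z := T.A z * S.A (T.g z)
  smooth_g := S.smooth_g.comp T.smooth_g
  smooth_A p q := by
    simp only [mul_apply]
    exact ContDiff.sum fun r _ => (T.smooth_A p r).mul ((S.smooth_A r q).comp T.smooth_g)
  maps z hz := S.maps _ (T.maps z hz)
  push z hz r := by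
    have e := ((S.diff_g (T.g z)).hasFDerivAt.comp z (T.diff_g z).hasFDerivAt).fderiv
    rw [show (fun z => S.g (T.g z)) = S.g ∘ T.g from rfl, e, ContinuousLinearMap.comp_apply]
    have h1 : fderiv ℝ T.g z (∑ q, (T.A z * S.A (T.g z)) q r • sfield q z)
        = ∑ s, S.A (T.g z) s r • sfield s (T.g z) := by
      rw [← Finset.sum_congr rfl fun s _ =>
        congrArg (fun v => S.A (T.g z) s r • v) (T.push z hz s)]
      simp only [mul_apply, Finset.sum_smul, map_sum, map_smul, Finset.smul_sum, smul_smul]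
      rw [Finset.sum_comm]
      simp only [mul_comm]
    rw [h1]
    exact S.push _ (T.maps z hz) r
  str z hz a b h := by
    set w := T.g z with hw
    have hSd : ∀ s t, DifferentiableAt ℝ (fun y => S.A (T.g y) s t) z := fun s t =>
      (S.diff_A s t (T.g z)).comp z (T.diff_g z)
    have hD : ∀ p h b, xD p (fun y => (T.A y * S.A (T.g y)) h b) z
        = ∑ r, (xD p (fun y => T.A y h r) z * S.A w r b
          + T.A z h r * xD p (fun y => S.A (T.g y) r b) z) := fun p h b => by
      simp only [mul_apply]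
      rw [xD_fun_sum fun r _ => (T.diff_A h r z).fun_mul (hSd r b)]
      exact Finset.sum_congr rfl fun r _ => xD_fun_mul (T.diff_A h r z) (hSd r b) p
    have hY : ∀ a h b, ∑ p, (T.A z * S.A w) p a * xD p (fun y => (T.A y * S.A (T.g y)) h b) z
        = ∑ s, ∑ r, S.A w s a * S.A w r b * ∑ p, T.A z p s * xD p (fun y => T.A y h r) z
          + ∑ r, T.A z h r * ∑ s, S.A w s a * xD s (fun y => S.A y r b) w := by
      intro a h b
      simp only [hD]
      simp only [mul_apply, Finset.mul_sum, Finset.sum_mul, mul_add, Finset.sum_add_distrib]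
      congr 1
      · rw [Finset.sum_comm (γ := Fin 2 × Fin 3)]
        rw [Finset.sum_congr rfl fun r _ => Finset.sum_comm]
        rw [Finset.sum_comm]
        refine Finset.sum_congr rfl fun s _ => Finset.sum_congr rfl fun r _ =>
          Finset.sum_congr rfl fun p _ => by ring
      · rw [Finset.sum_comm]
        refine Finset.sum_congr rfl fun r _ => ?_
        rw [Finset.sum_comm]
        refine Finset.sum_congr rfl fun s _ => ?_
        rw [← T.sum_xD_comp hz (S.diff_A r b w) s, Finset.mul_sum, Finset.mul_sum]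
        exact Finset.sum_congr rfl fun p _ => by ring
    have hQ : ∑ p, ∑ q, (T.A z * S.A w) p a * (T.A z * S.A w) q b * cc p q h
        = ∑ s, ∑ r, S.A w s a * S.A w r b * ∑ p, ∑ q, T.A z p s * T.A z q r * cc p q h := by
      simp only [mul_apply, Finset.mul_sum, Finset.sum_mul]
      rw [Finset.sum_congr rfl fun p _ => Finset.sum_congr rfl fun q _ => Finset.sum_comm]
      rw [Finset.sum_congr rfl fun p _ => Finset.sum_comm]
      rw [Finset.sum_comm]
      refine Finset.sum_congr rfl fun s _ => ?_
      rw [Finset.sum_congr rfl fun p _ => Finset.sum_comm]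
      rw [Finset.sum_comm]
      exact Finset.sum_congr rfl fun r _ => Finset.sum_congr rfl fun p _ =>
        Finset.sum_congr rfl fun q _ => by ring
    rw [hQ, hY a h b, hY b h a]
    rw [Finset.sum_comm (f := fun s r => S.A w s b * S.A w r a *
      ∑ p, T.A z p s * xD p (fun y => T.A y h r) z)]
    have key : ∑ s, ∑ r, S.A w s a * S.A w r b * ∑ p, ∑ q, T.A z p s * T.A z q r * cc p q h
        + ∑ s, ∑ r, S.A w s a * S.A w r b * ∑ p, T.A z p s * xD p (fun y => T.A y h r) z
        - ∑ s, ∑ r, S.A w r b * S.A w s a * ∑ p, T.A z p r * xD p (fun y => T.A y h s) z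
        = ∑ m, T.A z h m * ∑ s, ∑ r, S.A w s a * S.A w r b * cc s r m := by
      simp only [← Finset.sum_add_distrib, ← Finset.sum_sub_distrib, Finset.mul_sum]
      symm
      rw [Finset.sum_comm]
      refine Finset.sum_congr rfl fun s _ => ?_
      rw [Finset.sum_comm]
      refine Finset.sum_congr rfl fun r _ => ?_
      have e := congrArg (fun t => S.A w s a * S.A w r b * t) (T.str z hz s r h)
      simp only [Finset.mul_sum, mul_add, mul_sub] at e
      rw [← Finset.mul_sum] at e
      simp only [Finset.mul_sum] at e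
      rw [Finset.sum_congr rfl fun m _ => show T.A z h m * (S.A w s a * S.A w r b * cc s r m)
        = S.A w s a * S.A w r b * (T.A z h m * cc s r m) by ring, ← e]
      simp only [← Finset.sum_add_distrib, ← Finset.sum_sub_distrib]
      exact Finset.sum_congr rfl fun p _ => by ring
    have fin : ∑ f, (T.A z * S.A w) h f * cc a b f
        = ∑ m, T.A z h m * (∑ s, ∑ r, S.A w s a * S.A w r b * cc s r m
          + ∑ s, S.A w s a * xD s (fun y => S.A y m b) w
          - ∑ s, S.A w s b * xD s (fun y => S.A y m a) w) := by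
      simp only [mul_apply, Finset.sum_mul]
      rw [Finset.sum_comm]
      refine Finset.sum_congr rfl fun m _ => ?_
      rw [S.str w (T.maps z hz) a b m, Finset.mul_sum]
      exact Finset.sum_congr rfl fun f _ => by ring
    simp only [mul_add, mul_sub, Finset.sum_add_distrib, Finset.sum_sub_distrib] at fin
    linear_combination key - fin
  div z hz r := by
    have hSd : ∀ s t, DifferentiableAt ℝ (fun y => S.A (T.g y) s t) z := fun s t =>
      (S.diff_A s t (T.g z)).comp z (T.diff_g z)
    simp only [mul_apply]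
    rw [Finset.sum_congr rfl fun p _ =>
      xD_fun_sum (fun m _ => (T.diff_A p m z).fun_mul (hSd m r)) p, Finset.sum_comm]
    simp only [xD_fun_mul (T.diff_A _ _ z) (hSd _ r), Finset.sum_add_distrib, ← Finset.sum_mul,
      T.div z hz, zero_mul, zero_add]
    rw [Finset.sum_congr rfl fun m _ => T.sum_xD_comp hz (S.diff_A m r _) m]
    exact S.div _ (T.maps z hz) r

theorem contDiff_crossInner (G : M6) {Φ : Sph → ℝ} (hΦ : ContDiff ℝ 2 Φ) (r : Fin 2 × Fin 3) :
    ContDiff ℝ 1 fun w => ∑ s, G r s * xD s Φ w :=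
  ContDiff.sum fun s _ => contDiff_const.mul (contDiff_xD hΦ le_rfl s)

theorem diff_conj (G : M6) (p q : Fin 2 × Fin 3) :
    Differentiable ℝ fun w => (T.A w * G * (T.A w)ᵀ) p q := by
  simp only [mul_apply, transpose_apply]
  exact Differentiable.fun_sum fun r _ => (Differentiable.fun_sum fun s _ =>
    (T.diff_A p s).fun_mul (differentiable_const _)).fun_mul (T.diff_A q r)

/-- The cross Laplacian of the pulled back tensor is the pull-back of the cross Laplacian. -/
theorem crossLap_push (G : M6) {Φ : Sph → ℝ} (hΦ : ContDiff ℝ 2 Φ) {z : Sph} (hz : OnS z) :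
    crossLap (fun w => T.A w * G * (T.A w)ᵀ) (fun w => Φ (T.g w)) z
      = crossLap (fun _ => G) Φ (T.g z) := by
  set H : (Fin 2 × Fin 3) → Sph → ℝ := fun r w => ∑ s, G r s * xD s Φ w
  have hH : ∀ r, Differentiable ℝ (H r) := fun r =>
    (contDiff_crossInner G hΦ r).differentiable one_ne_zero
  have hcomp : ContDiff ℝ 2 fun w => Φ (T.g w) :=
    hΦ.comp (T.smooth_g.of_le (WithTop.coe_le_coe.2 le_top))
  have inner : ∀ p, ∀ w, OnS w →
      ∑ q, (T.A w * G * (T.A w)ᵀ) p q * xD q (fun y => Φ (T.g y)) w
        = ∑ r, T.A w p r * H r (T.g w) := by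
    intro p w hw
    simp only [H, ← T.sum_xD_comp hw (hΦ.differentiable two_ne_zero _), mul_apply, transpose_apply,
      Finset.sum_mul, Finset.mul_sum]
    rw [Finset.sum_congr rfl fun q _ => Finset.sum_comm, Finset.sum_comm]
    refine Finset.sum_congr rfl fun r _ => ?_
    rw [Finset.sum_comm]
    exact Finset.sum_congr rfl fun s _ => Finset.sum_congr rfl fun q _ => by ring
  simp only [crossLap_eq]
  rw [Finset.sum_congr rfl fun p _ => xD_congr hz
    (DifferentiableAt.fun_sum fun q _ =>
      (T.diff_conj G p q z).fun_mul ((contDiff_xD (m := 1) hcomp le_rfl q).differentiable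
        one_ne_zero z))
    (DifferentiableAt.fun_sum fun r _ =>
      (T.diff_A p r z).fun_mul ((hH r _).comp z (T.diff_g z))) (inner p) p]
  rw [Finset.sum_congr rfl fun p _ =>
    xD_fun_sum (fun r _ => (T.diff_A p r z).fun_mul ((hH r _).comp z (T.diff_g z))) p,
    Finset.sum_comm]
  refine Finset.sum_congr rfl fun r _ => ?_
  rw [Finset.sum_congr rfl fun p _ => xD_fun_mul (T.diff_A p r z) ((hH r _).comp z (T.diff_g z)) p,
    Finset.sum_add_distrib, ← Finset.sum_mul, T.div z hz, zero_mul, zero_add]
  exact T.sum_xD_comp hz (hH r _) r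

end FrameMap

theorem xD_Y (k : Fin 2 × Fin 3) (i : St) (z : Sph) :
    xD k (Sphere.Y i) z = (Sphere.ev ((Sphere.Slot.R k.1).rder k.2 (Sphere.Q i)) z).re := by
  have e : Sphere.Y i = Complex.reCLM ∘ Sphere.ev (Sphere.Q i) := rfl
  rw [xD, sfield_eq, e, (Complex.reCLM.hasFDerivAt.comp z
    ((Sphere.differentiable_ev (Sphere.Q i)) z).hasFDerivAt).fderiv,
    ContinuousLinearMap.comp_apply, (Sphere.Slot.R k.1).fderiv_ev]
  rfl

theorem xD_re_ev (k : Fin 2 × Fin 3) (p : Sphere.Pol) (z : Sph) :
    xD k (fun w => (Sphere.ev p w).re) z =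
      (Sphere.ev ((Sphere.Slot.R k.1).rder k.2 p) z).re := by
  have e : (fun w => (Sphere.ev p w).re) = Complex.reCLM ∘ Sphere.ev p := rfl
  rw [xD, sfield_eq, e, (Complex.reCLM.hasFDerivAt.comp z
    ((Sphere.differentiable_ev p) z).hasFDerivAt).fderiv,
    ContinuousLinearMap.comp_apply, (Sphere.Slot.R k.1).fderiv_ev]
  rfl

/-- The basis diagonalises every homogeneous cross Laplacian, on all of `ℝ⁴ × ℝ⁴`. -/
theorem crossLap_gram (w : Fin 3 → ℝ) (i : St) (z : Sph) :
    crossLap (fun _ => gram w) (Sphere.Y i) z = -Blk.lam w i.blk * Sphere.Y i z := by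
  have hd : ∀ p, Differentiable ℝ (fun y => (Sphere.ev p y).re) := fun p =>
    Complex.reCLM.differentiable.comp (Sphere.differentiable_ev p)
  have hxY : ∀ q, xD q (Sphere.Y i) =
      fun y => (Sphere.ev ((Sphere.Slot.R q.1).rder q.2 (Sphere.Q i)) y).re :=
    fun q => funext fun y => xD_Y q i y
  have step : ∀ p, xD p (fun y => ∑ q, gram w p q * xD q (Sphere.Y i) y) z =
      ∑ q, gram w p q * (Sphere.ev ((Sphere.Slot.R p.1).rder p.2
        ((Sphere.Slot.R q.1).rder q.2 (Sphere.Q i))) z).re := fun p => by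
    simp only [hxY]
    rw [xD_fun_sum fun q _ => (differentiableAt_const _).fun_mul (hd _ z)]
    refine Finset.sum_congr rfl fun q _ => ?_
    rw [xD_fun_mul (differentiableAt_const _) (hd _ z), xD_re_ev,
      show xD p (fun _ => gram w (p.1, p.2) q) z = 0 by simp [xD], zero_mul, zero_add]
  rw [crossLap_eq, Finset.sum_congr rfl fun p _ => step p]
  have e := congrFun (Sphere.Q_eigen w i) z
  have e2 : Sphere.ev (Sphere.lapP w (Sphere.Q i)) z
      = ((-Blk.lam w i.1 * Sphere.Y i z : ℝ) : ℂ) := by
    rw [e, map_smul, Pi.smul_apply, smul_eq_mul, ← Sphere.ofReal_Y]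
    push_cast
    rfl
  have e3 := congrArg Complex.re e2
  rw [Complex.ofReal_re] at e3
  rw [← e3]
  have hD : ∀ u p, Sphere.Slot.D.rder u p =
      (Sphere.Slot.R 0).rder u p + (Sphere.Slot.R 1).rder u p := by
    intro u p
    fin_cases u <;> simp [Sphere.Slot.rder, Sphere.Slot.sgn, Sphere.Slot.diag_eq] <;> module
  simp only [Sphere.lapP, hD, map_add, map_smul, smul_add, Pi.add_apply,
    Pi.smul_apply, Complex.add_re, smul_eq_mul,
    Complex.re_ofReal_mul, Fintype.sum_prod_type, Fin.sum_univ_three, Fin.sum_univ_two]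
  simp [gram]
  ring

end

end Vale.Agent.P225.Model
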