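import Vale.Agent.P225.Model.Fields

/-!
P225 (helper20): the first-order entries of an insertion are the pairings of the gradients with
its tensor, so they are symmetric and nondegenerate on pairs of combinations off the zero level.
-/

namespace Vale.Agent.P225.InsTensor

open MvPolynomial MeasureTheory Matrix
open Sphere (Pol N2 R44 crd2 haarN ev evN Slot)
open scoped ContDiff ComplexConjugate

noncomputable section

theorem integral_re (p : Pol) :
    ∫ x, (ev p (crd2 x)).re ∂haarN = (∫ x, evN p x ∂haarN).re :=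
  _root_.integral_re (Sphere.integrable_evN p)

theorem integrable_re (p : Pol) : Integrable (fun x => (ev p (crd2 x)).re) haarN :=
  (Sphere.integrable_evN p).re

theorem IsRe.mul {p q : Pol} (hp : IsRe p) (hq : IsRe q) : IsRe (p * q) := fun z => by
  rw [Sphere.ev_mul, map_mul, hp z, hq z]

theorem IsRe.re_mul {p : Pol} (hp : IsRe p) (q : Pol) (z : R44) :
    (ev (p * q) z).re = (ev p z).re * (ev q z).re := by
  have h : (ev p z).im = 0 := Complex.conj_eq_iff_im.1 (hp z)
  rw [Sphere.ev_mul, Complex.mul_re, h, zero_mul, sub_zero]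

theorem isRe_Q (i : St) : IsRe (Sphere.Q i) := Sphere.conj_ev_Q i

/-- The entries of the first order of insertion `f`. -/
theorem ins1_eq (f : ℕ) (i j : St) :
    Model.ins1 f i j = ∫ x, (ev (nilPol f) (crd2 x)).re *
      (grad (Sphere.Q j) (crd2 x) ⬝ᵥ (symN (nilTen f) *ᵥ grad (Sphere.Q i) (crd2 x))) ∂haarN := by
  rw [Model.ins1, Model.insKer_apply, Model.insEnt_eq]
  have hint : ∀ a b : Fld, Integrable (fun x => symN (nilTen f) a b * ((ev (nilPol f) (crd2 x)).re *
      (grad (Sphere.Q j) (crd2 x) a * grad (Sphere.Q i) (crd2 x) b))) haarN := fun a b => by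
    refine ((integrable_re ((Slot.R a.1).rder a.2 (Sphere.Q j) *
      (nilPol f * (Slot.R b.1).rder b.2 (Sphere.Q i)))).const_mul (symN (nilTen f) a b)).congr
      (Filter.Eventually.of_forall fun x => ?_)
    simp only [((isRe_Q j).rder _ _).re_mul, (isRe_nilPol f).re_mul, grad]
    ring
  have e : ∀ a b : Fld, symN (nilTen f) a b * (Sphere.ip ((Slot.R a.1).rder a.2 (Sphere.Q j))
      (nilPol f * (Slot.R b.1).rder b.2 (Sphere.Q i))).re
        = ∫ x, symN (nilTen f) a b * ((ev (nilPol f) (crd2 x)).re *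
            (grad (Sphere.Q j) (crd2 x) a * grad (Sphere.Q i) (crd2 x) b)) ∂haarN := fun a b => by
    rw [integral_const_mul, show Sphere.ip ((Slot.R a.1).rder a.2 (Sphere.Q j))
        (nilPol f * (Slot.R b.1).rder b.2 (Sphere.Q i)) =
        ∫ x, evN ((Slot.R a.1).rder a.2 (Sphere.Q j) *
          (nilPol f * (Slot.R b.1).rder b.2 (Sphere.Q i))) x ∂haarN from
      integral_congr_ae (Filter.Eventually.of_forall fun x => by
        simp only [Sphere.evN_apply, Sphere.ev_mul, (isRe_Q j).rder _ _ _]), ← integral_re]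
    refine congrArg _ (integral_congr_ae (Filter.Eventually.of_forall fun x => ?_))
    simp only [((isRe_Q j).rder _ _).re_mul, (isRe_nilPol f).re_mul, grad]
    ring
  simp only [e]
  rw [← Finset.sum_congr rfl fun a _ => integral_finsetSum _ fun b _ => hint a b,
    ← integral_finsetSum _ fun a _ => integrable_finsetSum _ fun b _ => hint a b]
  refine integral_congr_ae (Filter.Eventually.of_forall fun x => ?_)
  simp only [dotProduct, mulVec, Finset.mul_sum]
  exact Finset.sum_congr rfl fun a _ => Finset.sum_congr rfl fun b _ => by ring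

theorem symN_transpose (e : NilIdx) : (symN e)ᵀ = symN e := by
  simp [symN, gram0, add_comm]

theorem ins1_symm (f : ℕ) (i j : St) : Model.ins1 f i j = Model.ins1 f j i := by
  rw [ins1_eq, ins1_eq]
  refine integral_congr_ae (Filter.Eventually.of_forall fun x => ?_)
  simp only
  rw [dotProduct_mulVec, ← mulVec_transpose, symN_transpose, dotProduct_comm]

/-! ### Nondegeneracy -/

/-- The pairing of two combinations through one polynomial and one tensor. -/
def pairInt (e : NilIdx) (p q F : Pol) : ℂ := ∫ x, evN F x * evN (brk e p q) x ∂haarN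

theorem re_pairInt {p q F : Pol} (hp : IsRe p) (hq : IsRe q) (hF : IsRe F) (e : NilIdx) :
    (pairInt e p q F).re =
      ∫ x, (ev F (crd2 x)).re * (grad p (crd2 x) ⬝ᵥ (symN e *ᵥ grad q (crd2 x))) ∂haarN := by
  have : pairInt e p q F = ∫ x, evN (F * brk e p q) x ∂haarN := by
    simp [pairInt, Sphere.evN_mul]
  rw [this, ← integral_re]
  refine integral_congr_ae (Filter.Eventually.of_forall fun x => ?_)
  simp only
  rw [hF.re_mul, ev_brk hp hq, Complex.ofReal_re]

theorem im_pairInt {p q F : Pol} (hp : IsRe p) (hq : IsRe q) (hF : IsRe F) (e : NilIdx) :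
    conj (pairInt e p q F) = pairInt e p q F := by
  rw [pairInt, ← integral_conj]
  refine integral_congr_ae (Filter.Eventually.of_forall fun x => ?_)
  simp only [map_mul, Sphere.evN_apply, hF _, ev_brk hp hq, Complex.conj_ofReal]

/-- Some insertion pairs nontrivially with two nonconstant combinations. -/
theorem exists_nil_pairing {p q : Pol} (hp : IsRe p) (hq : IsRe q)
    (hp' : ∃ z y, Unit2 z ∧ Unit2 y ∧ ev p z ≠ ev p y)
    (hq' : ∃ z y, Unit2 z ∧ Unit2 y ∧ ev q z ≠ ev q y) :
    ∃ f, ∫ x, (ev (nilPol f) (crd2 x)).re *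
      (grad p (crd2 x) ⬝ᵥ (symN (nilTen f) *ᵥ grad q (crd2 x))) ∂haarN ≠ 0 := by
  by_contra h
  push Not at h
  obtain ⟨e, F, hF, hne⟩ := exists_integral_ne_zero hp hq hp' hq'
  have hmon : ∀ m, pairInt e p q (monP m) = 0 := fun m => by
    obtain ⟨f, hf1, hf2⟩ := exists_nil m e
    have h0 := re_pairInt hp hq (isRe_monP m) e
    rw [← hf1, ← hf2, h f] at h0
    rw [← Complex.conj_eq_iff_re.1 (im_pairInt hp hq (isRe_monP m) e), ← hf1, ← hf2, h0,
      Complex.ofReal_zero]
  obtain ⟨c, hc⟩ := Finsupp.mem_span_range_iff_exists_finsupp.1 (ev_mem_span F)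
  apply hne
  rw [← re_pairInt hp hq hF]
  have : pairInt e p q F = ∑ m ∈ c.support, c m * pairInt e p q (monP m) := by
    have hint : ∀ m ∈ c.support,
        Integrable (fun x => c m * (evN (monP m) x * evN (brk e p q) x)) haarN := fun m _ => by
      simp only [← Sphere.evN_mul]
      exact (Sphere.integrable_evN _).const_mul _
    simp only [pairInt, ← integral_const_mul, ← integral_finsetSum _ hint]
    refine integral_congr_ae (Filter.Eventually.of_forall fun x => ?_)
    simp only [Sphere.evN_apply, ← congrFun hc (crd2 x), Finsupp.sum, Finset.sum_apply,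
      Pi.smul_apply, smul_eq_mul, Finset.sum_mul, mul_assoc]
  simp [this, hmon]

/-- The entries of the first order see every rank one matrix off the zero level. -/
theorem exists_entries_ne_zero {ι : Type*} [Fintype ι]
    {emb : ι → St} (hemb : Function.Injective emb) {v u : ι → ℝ}
    (hv : ∃ y, v y ≠ 0 ∧ (emb y).blk.level 0 ≠ 0) (hu : ∃ y, u y ≠ 0 ∧ (emb y).blk.level 0 ≠ 0) :
    ∃ f, ∑ y, ∑ z, v y * u z * Model.ins1 f (emb y) (emb z) ≠ 0 := by
  classical
  set s := Finset.univ.image emb
  let ext : (ι → ℝ) → St → ℝ := fun w => Function.extend emb w 0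
  have hext : ∀ (w : ι → ℝ) y, ext w (emb y) = w y := fun w y => hemb.extend_apply w 0 y
  have hn : ∀ {w : ι → ℝ}, (∃ y, w y ≠ 0 ∧ (emb y).blk.level 0 ≠ 0) →
      ∃ z y, Unit2 z ∧ Unit2 y ∧ ev (comb s (ext w)) z ≠ ev (comb s (ext w)) y := by
    rintro w ⟨y, hy, hl⟩
    exact nonconst_comb (i := emb y) (Finset.mem_image_of_mem _ (Finset.mem_univ y))
      (by rwa [hext]) hl
  obtain ⟨f, hf⟩ := exists_nil_pairing (isRe_comb s (ext v)) (isRe_comb s (ext u)) (hn hv) (hn hu)
  refine ⟨f, fun h0 => hf ?_⟩
  have hg : ∀ (w : ι → ℝ) z,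
      grad (comb s (ext w)) z = ∑ y, w y • grad (Sphere.Q (emb y)) z := fun w z => funext fun k => by
    simp only [grad, comb, s, Finset.sum_image hemb.injOn, map_sum, Finset.sum_apply,
      Derivation.map_smul, map_smul, Pi.smul_apply, smul_eq_mul, Complex.re_sum,
      Complex.re_ofReal_mul, hext]
  have hint : ∀ y z, Integrable (fun x => (v y * u z) * ((ev (nilPol f) (crd2 x)).re *
      (grad (Sphere.Q (emb y)) (crd2 x) ⬝ᵥ (symN (nilTen f) *ᵥ grad (Sphere.Q (emb z)) (crd2 x)))))
      haarN := fun y z => by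
    have := (integrable_re (nilPol f * brk (nilTen f) (Sphere.Q (emb y)) (Sphere.Q (emb z)))).const_mul
      (v y * u z)
    refine this.congr (Filter.Eventually.of_forall fun x => ?_)
    simp only
    rw [(isRe_nilPol f).re_mul, ev_brk (isRe_Q _) (isRe_Q _), Complex.ofReal_re]
  rw [← h0]
  simp only [fun y z => (ins1_symm f (emb y) (emb z)).trans (ins1_eq f (emb z) (emb y)),
    ← integral_const_mul]
  rw [← Finset.sum_congr rfl fun y _ => integral_finsetSum _ fun z _ => hint y z,
    ← integral_finsetSum _ fun y _ => integrable_finsetSum _ fun z _ => hint y z]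
  refine integral_congr_ae (Filter.Eventually.of_forall fun x => ?_)
  simp only [hg, sum_dotProduct, mulVec_sum, dotProduct_sum, mulVec_smul, smul_dotProduct,
    dotProduct_smul, smul_eq_mul, Finset.mul_sum]
  rw [Finset.sum_comm]
  exact Finset.sum_congr rfl fun y _ => Finset.sum_congr rfl fun z _ => by ring

end

end Vale.Agent.P225.InsTensor
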