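import Vale.Agent.P225.Model.LevelBound
import Vale.Agent.P225.Model.FrameMap
import Vale.Agent.P225.Sphere.Op

/-!
P225, model fields (helper1): the matrix of the cross Laplacian of a tensor `f(z) • S`, with `f` a
polynomial and `S` a constant matrix: band, form and bound between levels of `J3`.
-/

namespace Vale.Agent.P225.Model

open MeasureTheory Vale.Agent.P225.Sphere
open scoped ComplexConjugate ContDiff BigOperators Classical

noncomputable section

theorem ev_rder_congr (s : Slot) (u : Fin 3) {p q : Pol} (h : ev p = ev q) :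
    ev (s.rder u p) = ev (s.rder u q) :=
  funext fun z => by rw [← Slot.fderiv_ev, h, Slot.fderiv_ev]

theorem conj_ev_rder_Q (s : Slot) (u : Fin 3) (i : St) (z : R44) :
    conj (ev (s.rder u (Q i)) z) = ev (s.rder u (Q i)) z := by
  rw [← s.ev_rder_pc]
  exact congrFun (ev_rder_congr s u (funext fun w => by rw [ev_pc, conj_ev_Q])) z

/-- The polynomial of `∑ X_a (p S_ab X_b Y i)`. -/
def insPol (p : Pol) (S : M6) (i : St) : Pol :=
  ∑ a : Fin 2 × Fin 3, ∑ b : Fin 2 × Fin 3,
    (S a b : ℂ) • (Slot.R a.1).rder a.2 (p * (Slot.R b.1).rder b.2 (Q i))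

/-- The real part of a polynomial function. -/
def reEv (p : Pol) (z : Sph) : ℝ := (ev p z).re

theorem contDiff_reEv (p : Pol) {n : WithTop ℕ∞} : ContDiff ℝ n (reEv p) :=
  Complex.reCLM.contDiff.comp (contDiff_ev p)

theorem crossLap_reEv (p : Pol) (S : M6) (i : St) (z : Sph) :
    crossLap (fun w => reEv p w • S) (Sphere.Y i) z = (ev (insPol p S i) z).re := by
  have hd : ∀ q : Pol, Differentiable ℝ fun y => (ev q y).re := fun q =>
    Complex.reCLM.differentiable.comp (differentiable_ev q)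
  have h1 : ∀ (a : Fin 2 × Fin 3), (fun w => ∑ b, (reEv p w • S) a b * xD b (Sphere.Y i) w) =
      fun w => ∑ b, S a b * (ev (p * (Slot.R b.1).rder b.2 (Q i)) w).re := fun a =>
    funext fun w => Finset.sum_congr rfl fun b _ => by
      rw [xD_Y, Matrix.smul_apply, smul_eq_mul, ev_mul, Complex.mul_re,
        Complex.conj_eq_iff_im.1 (conj_ev_rder_Q _ _ i w), mul_zero, sub_zero, reEv]
      ring
  rw [crossLap_eq, insPol]
  simp only [h1, map_sum, Finset.sum_apply, Complex.re_sum]
  refine Finset.sum_congr rfl fun a _ => ?_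
  rw [xD_fun_sum fun b _ => (differentiableAt_const _).fun_mul (hd _ z)]
  refine Finset.sum_congr rfl fun b _ => ?_
  rw [xD_fun_mul (differentiableAt_const _) (hd _ z), xD_re_ev,
    show xD a (fun _ => S a b) z = 0 by simp [xD], zero_mul, zero_add, map_smul, Pi.smul_apply,
    smul_eq_mul, Complex.re_ofReal_mul]

/-- The matrix of `crossLap (reEv p • S)` on the basis, up to the sign. -/
def insEnt (p : Pol) (S : M6) (i j : St) : ℝ := -(cfQ (insPol p S i) j).re

theorem insEnt_eq (p : Pol) (S : M6) (i j : St) :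
    insEnt p S i j = ∑ a : Fin 2 × Fin 3, ∑ b : Fin 2 × Fin 3, S a b *
      (ip ((Slot.R a.1).rder a.2 (Q j)) (p * (Slot.R b.1).rder b.2 (Q i))).re := by
  rw [insEnt, cfQ, insPol, ip_sum_right, Complex.re_sum, ← Finset.sum_neg_distrib]
  refine Finset.sum_congr rfl fun a _ => ?_
  rw [ip_sum_right, Complex.re_sum, ← Finset.sum_neg_distrib]
  refine Finset.sum_congr rfl fun b _ => ?_
  rw [ip_smul_right, Slot.ip_rder, Complex.re_ofReal_mul, Complex.neg_re]
  ring

/-! ### The band -/

theorem exists_band_pc (p : Pol) : ∃ N, ∀ a b, ∀ q ∈ Bd a b,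
    q * p ∈ Bd (a + N) (b + N) ∧ q * pc p ∈ Bd (a + N) (b + N) := by
  obtain ⟨N, hN⟩ := exists_band p
  obtain ⟨M, hM⟩ := exists_band (pc p)
  exact ⟨max N M, fun a b q hq => ⟨Bd_mono (by omega) (by omega) (hN a b q hq),
    Bd_mono (by omega) (by omega) (hM a b q hq)⟩⟩

/-- The width of the band of a polynomial. -/
def band (p : Pol) : ℕ := (exists_band_pc p).choose

theorem band_spec (p : Pol) : ∀ a b, ∀ q ∈ Bd a b,
    q * p ∈ Bd (a + band p) (b + band p) ∧ q * pc p ∈ Bd (a + band p) (b + band p) :=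
  (exists_band_pc p).choose_spec

theorem ip_band {p : Pol} {c e a b : ℕ} {x y : Pol} (hx : InLev c e x) (hy : InLev a b y)
    (h : a + band p < c ∨ b + band p < e ∨ c + band p < a ∨ e + band p < b) :
    ip x (p * y) = 0 := by
  rcases h with h | h | h
  · rw [mul_comm]
    exact ip_eq_zero_of_Bd hx (band_spec p a b y hy.mem_Bd).1 (.inl h)
  · rw [mul_comm]
    exact ip_eq_zero_of_Bd hx (band_spec p a b y hy.mem_Bd).1 (.inr h)
  · have e1 : ip x (p * y) = ip (x * pc p) y := by
      refine integral_congr_ae (Filter.Eventually.of_forall fun z => ?_)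
      simp only [evN_mul, evN_pc, map_mul, Complex.conj_conj]
      ring
    rw [e1, ← ip_conj, ip_eq_zero_of_Bd hy (band_spec p c e x hx.mem_Bd).2 h, map_zero]

/-- The levels of `J3` reached from a level. -/
def band2 (N : ℕ) (g : ℕ × ℕ) : Finset (ℕ × ℕ) :=
  Finset.Icc (g.1 - N) (g.1 + N) ×ˢ Finset.Icc (g.2 - N) (g.2 + N)

theorem insEnt_eq_zero (p : Pol) (S : M6) {i j : St}
    (h : j.blk.level 0 ∉ band2 (band p) (i.blk.level 0)) : insEnt p S i j = 0 := by
  rw [insEnt_eq]
  refine Finset.sum_eq_zero fun a _ => Finset.sum_eq_zero fun b _ => ?_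
  rw [ip_band ((inLev_Q j).rder _ _) ((inLev_Q i).rder _ _), Complex.zero_re, mul_zero]
  simp only [band2, Finset.mem_product, Finset.mem_Icc, Blk.level, Matrix.cons_val_zero] at h
  omega

/-- The states of the levels reached from a level. -/
def bandStates (N : ℕ) (g : ℕ × ℕ) : Finset St := (band2 N g).biUnion (levSet 0)

theorem mem_bandStates {N : ℕ} {g : ℕ × ℕ} {j : St} :
    j ∈ bandStates N g ↔ j.blk.level 0 ∈ band2 N g := by
  simp only [bandStates, Finset.mem_biUnion, mem_levSet, exists_eq_right']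

theorem card_bandStates_le (N : ℕ) (g : ℕ × ℕ) :
    (bandStates N g).card ≤ ∑ h ∈ band2 N g, (levSet 0 h).card := Finset.card_biUnion_le

/-- The rows of the matrix. -/
def insKer (p : Pol) (S : M6) (i : St) : St →₀ ℝ :=
  Finsupp.onFinset (bandStates (band p) (i.blk.level 0)) (insEnt p S i) fun j hj =>
    mem_bandStates.2 (by_contra fun hn => hj (insEnt_eq_zero p S hn))

theorem insKer_apply (p : Pol) (S : M6) (i j : St) : insKer p S i j = insEnt p S i j := rfl

/-- The cross Laplacian of the tensor on the basis. -/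
theorem crossLap_ins (p : Pol) (S : M6) (i : St) {z : Sph} (hz : OnS z) :
    crossLap (fun w => reEv p w • S) (Sphere.Y i) z
      = -(insKer p S i).sum fun j a => a * Sphere.Y j z := by
  obtain ⟨x, rfl⟩ := Sphere.exists_crd2 hz.1 hz.2
  rw [crossLap_reEv, insKer, Finsupp.onFinset_sum _ fun j => zero_mul _]
  set s := bandStates (band p) (i.blk.level 0)
  obtain ⟨t, ht, e⟩ := expansionQ (insPol p S i)
  have hs : ∀ j ∉ s, insEnt p S i j = 0 := fun j hj => insEnt_eq_zero p S fun hb =>
    hj (mem_bandStates.2 hb)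
  rw [← evN_apply, congrFun e x, Finset.sum_apply, Complex.re_sum, ← Finset.sum_neg_distrib]
  have e2 : ∀ j, ((cfQ (insPol p S i) j • evN (Q j)) x).re =
      -(insEnt p S i j * Sphere.Y j (crd2 x)) := fun j => by
    rw [Pi.smul_apply, smul_eq_mul, evN_apply, ← ofReal_Y, mul_comm, Complex.re_ofReal_mul, insEnt]
    ring
  simp only [e2]
  rw [Finset.sum_subset (Finset.subset_union_left (s₂ := s)) fun j _ hj => by
      rw [insEnt, ht j hj]; simp,
    ← Finset.sum_subset (Finset.subset_union_right (s₁ := t)) fun j _ hj => by rw [hs j hj]; simp]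

/-! ### The bound -/

theorem exists_supN (p : Pol) : ∃ C, 0 ≤ C ∧ ∀ x, ‖evN p x‖ ≤ C := by
  obtain ⟨C, hC⟩ := (isCompact_range (continuous_evN p)).isBounded.exists_norm_le
  exact ⟨max C 0, le_max_right _ _, fun x => (hC _ ⟨x, rfl⟩).trans (le_max_left _ _)⟩

/-- The sup of a polynomial function on the group. -/
def supN (p : Pol) : ℝ := (exists_supN p).choose

theorem supN_spec (p : Pol) : 0 ≤ supN p ∧ ∀ x, ‖evN p x‖ ≤ supN p := (exists_supN p).choose_spec

theorem ip_self_re (p : Pol) : (ip p p).re = ∫ x, Complex.normSq (evN p x) ∂haarN := by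
  rw [ip_self, Complex.ofReal_re]

theorem ip_self_nonneg (p : Pol) : 0 ≤ (ip p p).re := by
  rw [ip_self_re]; exact integral_nonneg fun x => Complex.normSq_nonneg _

theorem norm_ip_mul_le (p x y : Pol) :
    ‖ip x (p * y)‖ ≤ supN p * Real.sqrt (ip x x).re * Real.sqrt (ip y y).re := by
  rcases (ip_self_nonneg x).eq_or_lt with hx | hx
  · have hK : x ∈ Sphere.K := ip_self_eq_zero.1 (by rw [ip_self, ← ip_self_re, ← hx]; simp)
    rw [← ip_conj, ip_mem_K_right _ hK]
    simp only [map_zero, norm_zero]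
    exact mul_nonneg (mul_nonneg (supN_spec p).1 (Real.sqrt_nonneg _)) (Real.sqrt_nonneg _)
  rcases (ip_self_nonneg y).eq_or_lt with hy | hy
  · have hK : y ∈ Sphere.K := ip_self_eq_zero.1 (by rw [ip_self, ← ip_self_re, ← hy]; simp)
    rw [mul_comm, ip_mem_K_right _ (mul_mem_K hK p), norm_zero]
    exact mul_nonneg (mul_nonneg (supN_spec p).1 (Real.sqrt_nonneg _)) (Real.sqrt_nonneg _)
  set a := Real.sqrt (ip x x).re with ha
  set b := Real.sqrt (ip y y).re with hb
  have ha0 : 0 < a := Real.sqrt_pos.2 hx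
  have hb0 : 0 < b := Real.sqrt_pos.2 hy
  have hsq : ∀ q : Pol, Integrable (fun z => Complex.normSq (evN q z)) haarN := fun q =>
    (Complex.continuous_normSq.comp (continuous_evN q)).integrable_of_hasCompactSupport
      (HasCompactSupport.of_compactSpace _)
  have hpt : ∀ z, ‖conj (evN x z) * evN (p * y) z‖ ≤
      supN p * ((b / (2 * a)) * Complex.normSq (evN x z) + (a / (2 * b)) * Complex.normSq (evN y z)) := by
    intro z
    rw [norm_mul, RCLike.norm_conj, evN_mul, norm_mul, Complex.normSq_eq_norm_sq,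
      Complex.normSq_eq_norm_sq]
    set u := ‖evN x z‖
    set v := ‖evN y z‖
    have h2 : u * v ≤ b / (2 * a) * u ^ 2 + a / (2 * b) * v ^ 2 := by
      have : b / (2 * a) * u ^ 2 + a / (2 * b) * v ^ 2 - u * v
          = (b * u - a * v) ^ 2 / (2 * a * b) := by field_simp; ring
      have h0 : 0 ≤ (b * u - a * v) ^ 2 / (2 * a * b) := by positivity
      linarith
    calc u * (‖evN p z‖ * v) = ‖evN p z‖ * (u * v) := by ring
      _ ≤ supN p * (b / (2 * a) * u ^ 2 + a / (2 * b) * v ^ 2) :=
          mul_le_mul ((supN_spec p).2 z) h2 (mul_nonneg (norm_nonneg _) (norm_nonneg _))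
            (supN_spec p).1
  refine (norm_integral_le_of_norm_le ((((hsq x).const_mul _).add ((hsq y).const_mul _)).const_mul _)
    (Filter.Eventually.of_forall hpt)).trans (le_of_eq ?_)
  simp only [Pi.add_apply]
  rw [integral_const_mul, integral_add ((hsq x).const_mul _) ((hsq y).const_mul _),
    integral_const_mul, integral_const_mul, ← ip_self_re, ← ip_self_re,
    ← Real.sq_sqrt hx.le, ← Real.sq_sqrt hy.le, ← ha, ← hb]
  field_simp
  ring

theorem casNN (x : ℕ) : 0 ≤ Blk.cas x := by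
  unfold Blk.cas
  positivity

/-- The sum of the absolute values of the entries. -/
def absSum (S : M6) : ℝ := ∑ a, ∑ b, |S a b|

/-- The combination of the basis functions of one level. -/
def comb (g : ℕ × ℕ) (v : Fib 0 g → ℝ) : Pol := ∑ i, (v i : ℂ) • Q i.1

theorem inLev_comb (g : ℕ × ℕ) (v : Fib 0 g → ℝ) : InLev g.1 g.2 (comb g v) := by
  constructor <;>
  · simp only [comb, map_sum, map_smul, Finset.smul_sum]
    refine Finset.sum_congr rfl fun i _ => ?_
    first | rw [(inLev_Q i.1).1] | rw [(inLev_Q i.1).2]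
    rw [map_smul, smul_comm]
    obtain ⟨i, hi⟩ := i
    subst hi
    rfl

theorem ip_comb_self (g : ℕ × ℕ) (v : Fib 0 g → ℝ) :
    (ip (comb g v) (comb g v)).re = ∑ i, v i ^ 2 := by
  rw [comb, ip_sum_right, Complex.re_sum]
  refine Finset.sum_congr rfl fun i _ => ?_
  rw [ip_smul_right, ← ip_conj, ip_sum_right]
  simp only [ip_smul_right, ip_Q, Subtype.val_inj]
  simp [sq]

theorem ip_rder_comb_le (g : ℕ × ℕ) (v : Fib 0 g → ℝ) (a : Fin 2 × Fin 3) :
    (ip ((Slot.R a.1).rder a.2 (comb g v)) ((Slot.R a.1).rder a.2 (comb g v))).re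
      ≤ (Blk.cas g.1 + Blk.cas g.2) * ∑ i, v i ^ 2 := by
  set p := comb g v
  obtain ⟨f, u⟩ := a
  have hsum : ∑ w, (ip ((Slot.R f).rder w p) ((Slot.R f).rder w p)).re =
      Blk.cas (![g.1, g.2] f) * (ip p p).re := by
    rw [← Complex.re_sum]
    have e : ∑ w, ip ((Slot.R f).rder w p) ((Slot.R f).rder w p) =
        ip p ((Slot.R f).triple.cas p) := by
      simp only [Slot.ip_rder, Finset.sum_neg_distrib, ← ip_sum_right, sum_rder_sq,
        ← neg_one_smul ℂ ((Slot.R f).triple.cas p), ip_smul_right]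
      ring
    have hc : evN ((Slot.R f).triple.cas p) = evN (((Blk.cas (![g.1, g.2] f) : ℝ) : ℂ) • p) := by
      rw [← Slot.cas_left_eq]
      fin_cases f
      · exact (inLev_comb g v).1
      · exact (inLev_comb g v).2
    rw [e, ip_congr (p := p) rfl hc, ip_smul_right, Complex.re_ofReal_mul]
  refine (Finset.single_le_sum (f := fun w => (ip ((Slot.R f).rder w p) ((Slot.R f).rder w p)).re)
    (fun w _ => ip_self_nonneg _) (Finset.mem_univ u)).trans (hsum.le.trans ?_)
  rw [ip_comb_self]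
  refine mul_le_mul_of_nonneg_right ?_ (Finset.sum_nonneg fun i _ => sq_nonneg _)
  fin_cases f
  · simpa using casNN g.2
  · simpa using casNN g.1

/-- The form of the matrix between two levels. -/
theorem insEnt_comb (p : Pol) (S : M6) {g h : ℕ × ℕ} (v : Fib 0 h → ℝ) (u : Fib 0 g → ℝ) :
    ∑ i, ∑ j, v i * u j * insEnt p S i.1 j.1 = ∑ a : Fin 2 × Fin 3, ∑ b : Fin 2 × Fin 3, S a b *
      (ip ((Slot.R a.1).rder a.2 (comb g u)) (p * (Slot.R b.1).rder b.2 (comb h v))).re := by
  have hl : ∀ (a b : Fin 2 × Fin 3),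
      (ip ((Slot.R a.1).rder a.2 (comb g u)) (p * (Slot.R b.1).rder b.2 (comb h v))).re =
        ∑ i, ∑ j, v i * u j *
          (ip ((Slot.R a.1).rder a.2 (Q j.1)) (p * (Slot.R b.1).rder b.2 (Q i.1))).re := by
    intro a b
    simp only [comb, map_sum, Derivation.map_smul, Finset.mul_sum, mul_smul_comm]
    rw [ip_sum_right, Complex.re_sum]
    refine Finset.sum_congr rfl fun i _ => ?_
    rw [ip_smul_right, ← ip_conj, ip_sum_right, map_sum, Complex.re_ofReal_mul, Complex.re_sum,
      Finset.mul_sum]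
    refine Finset.sum_congr rfl fun j _ => ?_
    rw [ip_smul_right, map_mul, Complex.conj_ofReal, ip_conj, Complex.re_ofReal_mul, mul_assoc]
  simp only [hl, insEnt_eq, Finset.mul_sum]
  rw [Finset.sum_congr rfl fun i _ => Finset.sum_comm, Finset.sum_comm]
  refine Finset.sum_congr rfl fun a _ => ?_
  rw [Finset.sum_congr rfl fun i _ => Finset.sum_comm, Finset.sum_comm]
  exact Finset.sum_congr rfl fun b _ => Finset.sum_congr rfl fun i _ =>
    Finset.sum_congr rfl fun j _ => by ring

/-- The form between two levels is bounded by the square roots of their Casimir values. -/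
theorem abs_insEnt_comb_le (p : Pol) (S : M6) {g h : ℕ × ℕ} (v : Fib 0 h → ℝ)
    (u : Fib 0 g → ℝ) :
    |∑ i, ∑ j, v i * u j * insEnt p S i.1 j.1| ≤ supN p * absSum S
      * Real.sqrt (Blk.cas g.1 + Blk.cas g.2) * Real.sqrt (Blk.cas h.1 + Blk.cas h.2)
      * Real.sqrt (∑ j, u j ^ 2) * Real.sqrt (∑ i, v i ^ 2) := by
  rw [insEnt_comb, absSum]
  simp only [Finset.mul_sum, Finset.sum_mul]
  refine (Finset.abs_sum_le_sum_abs _ _).trans (Finset.sum_le_sum fun a _ => ?_)
  refine (Finset.abs_sum_le_sum_abs _ _).trans (Finset.sum_le_sum fun b _ => ?_)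
  have h1 := (Complex.abs_re_le_norm _).trans (norm_ip_mul_le p
    ((Slot.R a.1).rder a.2 (comb g u)) ((Slot.R b.1).rder b.2 (comb h v)))
  have h2 := Real.sqrt_le_sqrt (ip_rder_comb_le g u a)
  have h3 := Real.sqrt_le_sqrt (ip_rder_comb_le h v b)
  rw [Real.sqrt_mul (add_nonneg (casNN _) (casNN _))] at h2 h3
  have h0 := (supN_spec p).1
  have h4 := Real.sqrt_nonneg (Blk.cas g.1 + Blk.cas g.2)
  have h5 := Real.sqrt_nonneg (∑ i, u i ^ 2)
  calc |S a b * (ip _ _).re| ≤ |S a b| * (supN p * _ * _) := by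
        rw [abs_mul]; exact mul_le_mul_of_nonneg_left h1 (abs_nonneg _)
    _ ≤ |S a b| * (supN p * (_ * _) * (_ * _)) := by gcongr; positivity
    _ = _ := by ring

end

end Vale.Agent.P225.Model
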