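import Vale.Agent.P225.Metric.Param
import Vale.Agent.P225.Metric.Base
import Vale.Agent.P225.Sphere.Deriv
import Mathlib.Analysis.Analytic.IsolatedZeros
import Mathlib.Analysis.SpecialFunctions.Trigonometric.Deriv

/-!
P225 (helper20): the tensors of the insertions at `J3` and the non-degeneracy of their first order.

`N = a bᵀ` with `b ⬝ a = 0`; the first order of `(1 + e N)ᵀ G (1 + e N)` is `Nᵀ G + G N`.  If that
pairs to zero with the gradients of `v` and `u` against every polynomial and every such tensor,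
then `v` or `u` is constant on the spheres.
-/

namespace Vale.Agent.P225.InsTensor

open MvPolynomial MeasureTheory Matrix Topology
open Sphere (Pol N2 R4 R44 crd2 haarN ev evN mulR Slot)
open scoped ComplexConjugate

noncomputable section

/-! ### The tensors -/

/-- Index of a field. -/
abbrev Fld := Fin 2 × Fin 3

/-- Indices of the tensors. -/
abbrev NilIdx := {p : Fld × Fld // p.1 ≠ p.2} × Bool

/-- The column factor. -/
def vecA : NilIdx → Fld → ℝ
  | (p, false) => Pi.single p.1.1 1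
  | (p, true) => Pi.single p.1.1 1 + Pi.single p.1.2 1

/-- The row factor. -/
def vecB : NilIdx → Fld → ℝ
  | (p, false) => Pi.single p.1.2 1
  | (p, true) => Pi.single p.1.1 1 - Pi.single p.1.2 1

theorem vecB_dot_vecA (e : NilIdx) : vecB e ⬝ᵥ vecA e = 0 := by
  obtain ⟨⟨⟨k, l⟩, h : k ≠ l⟩, b⟩ := e
  cases b <;> simp [vecA, vecB, dotProduct_add, h, h.symm]

/-- The nilpotent tensor. -/
def nilMat (e : NilIdx) : M6 := vecMulVec (vecA e) (vecB e)

theorem nilMat_sq (e : NilIdx) : nilMat e * nilMat e = 0 := by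
  ext i j
  simp only [nilMat, mul_apply, vecMulVec_apply, Matrix.zero_apply]
  calc ∑ k, vecA e i * vecB e k * (vecA e k * vecB e j)
      = (vecA e i * vecB e j) * (vecB e ⬝ᵥ vecA e) := by
        rw [dotProduct, Finset.mul_sum]
        exact Finset.sum_congr rfl fun k _ => by ring
    _ = 0 := by rw [vecB_dot_vecA, mul_zero]

theorem smul_nilMat_sq (c : ℝ) (e : NilIdx) : (c • nilMat e) * (c • nilMat e) = 0 := by
  simp [nilMat_sq]

/-- The first order of the perturbed junction matrix. -/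
def symN (e : NilIdx) : M6 :=
  (nilMat e)ᵀ * gram (rawExc 0) + gram (rawExc 0) * nilMat e

theorem gram0_apply (p q : Fld) :
    gram (rawExc 0) p q = if p = q then 1 else 0 := by
  obtain ⟨p1, p2⟩ := p
  obtain ⟨q1, q2⟩ := q
  fin_cases p1 <;> fin_cases q1 <;> fin_cases p2 <;> fin_cases q2 <;> simp [gram, rawExc]

theorem gram0 : gram (rawExc 0) = 1 := by
  ext p q; rw [gram0_apply, Matrix.one_apply]

/-- The symmetric product that the tensors test. -/
theorem pair_eq (e : NilIdx) (p q : Fld → ℝ) :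
    p ⬝ᵥ (symN e *ᵥ q) =
      (p ⬝ᵥ vecB e) * (vecA e ⬝ᵥ q) + (p ⬝ᵥ vecA e) * (vecB e ⬝ᵥ q) := by
  simp only [symN, gram0, mul_one, one_mul, nilMat, transpose_vecMulVec, add_mulVec,
    vecMulVec_mulVec, dotProduct_add, dotProduct_smul, smul_eq_mul, op_smul_eq_smul]
  ring

/-- All tensors together see the product of two nonzero vectors. -/
theorem exists_pair_ne_zero {p q : Fld → ℝ} (hp : p ≠ 0) (hq : q ≠ 0) :
    ∃ e, p ⬝ᵥ (symN e *ᵥ q) ≠ 0 := by
  by_contra h
  push Not at h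
  simp only [pair_eq] at h
  have hoff : ∀ k l : Fld, k ≠ l → p l * q k + p k * q l = 0 := fun k l hkl => by
    have := h (⟨(k, l), hkl⟩, false)
    simpa [vecA, vecB] using this
  have hd : ∀ k l : Fld, k ≠ l → p k * q k = p l * q l := fun k l hkl => by
    have h1 := h (⟨(k, l), hkl⟩, true)
    simp [vecA, vecB, sub_dotProduct, dotProduct_sub, add_dotProduct, dotProduct_add] at h1
    linear_combination h1 / 2
  obtain ⟨k, hk⟩ := Function.ne_iff.1 hp
  simp only [Pi.zero_apply] at hk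
  -- the common diagonal value is zero: the diagonal of three fields has rank at most two
  have hdiag : p k * q k = 0 := by
    by_contra hne
    obtain ⟨l, m, hlk, hmk, hlm⟩ : ∃ l m : Fld, l ≠ k ∧ m ≠ k ∧ l ≠ m :=
      (by decide : ∀ k : Fld, ∃ l m : Fld, l ≠ k ∧ m ≠ k ∧ l ≠ m) k
    have h1 := hd k l hlk.symm
    have h2 := hd k m hmk.symm
    have a := hoff k l hlk.symm
    have b := hoff k m hmk.symm
    have c := hoff l m hlm
    have hql : q l ≠ 0 := fun e => hne (by rw [h1, e, mul_zero])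
    have hqm : q m ≠ 0 := fun e => hne (by rw [h2, e, mul_zero])
    have hqk : q k ≠ 0 := fun e => hne (by rw [e, mul_zero])
    -- the slopes `t = q / p` satisfy `t l = -t k = t m` and `t m = -t l`
    have e1 : p k * q l = -(p l * q k) := by linear_combination a
    have e2 : p k * q m = -(p m * q k) := by linear_combination b
    have e3 : p k * (p k * q l * (p m) + p k * q m * (p l)) = 0 := by
      linear_combination (p k * p k) * c
    rw [e1, e2] at e3
    have hpl : p l ≠ 0 := fun e => hne (by rw [h1, e, zero_mul])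
    have hpm : p m ≠ 0 := fun e => hne (by rw [h2, e, zero_mul])
    have : p k * (p l * p m * q k) ≠ 0 :=
      mul_ne_zero hk (mul_ne_zero (mul_ne_zero hpl hpm) hqk)
    exact this (by linear_combination (-1 / 2 : ℝ) * e3)
  have hqk : q k = 0 := (mul_eq_zero.1 hdiag).resolve_left hk
  apply hq
  funext l
  by_cases hl : k = l
  · rw [← hl]; exact hqk
  · have := hoff k l hl
    rw [hqk, mul_zero, zero_add] at this
    exact (mul_eq_zero.1 this).resolve_left hk

/-! ### Curves on the spheres -/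

theorem sfield_eq (k : Fld) (z : Sph) : sfield k z = (Slot.R k.1).field k.2 z := by
  obtain ⟨f, σ⟩ := k
  have h : ∀ q, qmul σ *ᵥ q = mulR σ q := fun q => by
    funext i
    fin_cases σ <;> fin_cases i <;>
      simp [qmul, mulR, mulVec, dotProduct, Fin.sum_univ_four]
  fin_cases f <;> simp [sfield, Slot.field, h]

/-- A great circle through two unit vectors, seen as a flow of an invariant field. -/
theorem exists_circle {x y : R4} (hx : ∑ i, x i ^ 2 = 1) (hy : ∑ i, y i ^ 2 = 1) :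
    ∃ θ : ℝ, ∃ w : Fin 3 → ℝ, ∑ u, w u ^ 2 = 1 ∧
      y = Real.cos θ • x + Real.sin θ • ∑ u, w u • mulR u x := by
  set α := x ⬝ᵥ y with hα
  set β : Fin 3 → ℝ := fun u => mulR u x ⬝ᵥ y with hβ
  have hexp : y = α • x + ∑ u, β u • mulR u x := by
    simp only [Fin.sum_univ_four] at hx
    funext i
    fin_cases i <;>
      simp [hα, hβ, mulR, dotProduct, Fin.sum_univ_three, Fin.sum_univ_four]
    · linear_combination -(y 0) * hx
    · linear_combination -(y 1) * hx
    · linear_combination -(y 2) * hx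
    · linear_combination -(y 3) * hx
  have hsq : α ^ 2 + ∑ u, β u ^ 2 = 1 := by
    simp only [Fin.sum_univ_four] at hx hy
    simp [hα, hβ, mulR, dotProduct, Fin.sum_univ_three, Fin.sum_univ_four]
    linear_combination (y 0 ^ 2 + y 1 ^ 2 + y 2 ^ 2 + y 3 ^ 2) * hx + hy
  have hnn : 0 ≤ ∑ u, β u ^ 2 := Finset.sum_nonneg fun u _ => sq_nonneg _
  have hα1 : -1 ≤ α ∧ α ≤ 1 := by constructor <;> nlinarith
  set r := Real.sqrt (1 - α ^ 2) with hr
  have hcos : Real.cos (Real.arccos α) = α := Real.cos_arccos hα1.1 hα1.2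
  have hsin : Real.sin (Real.arccos α) = r := Real.sin_arccos α
  have hr2 : r ^ 2 = ∑ u, β u ^ 2 := by
    rw [hr, Real.sq_sqrt (by linarith)]; linarith
  by_cases hr0 : r = 0
  · refine ⟨Real.arccos α, ![1, 0, 0], by simp [Fin.sum_univ_three], ?_⟩
    have hb : ∀ u, β u = 0 := fun u => by
      have := Finset.single_le_sum (fun v _ => sq_nonneg (β v)) (Finset.mem_univ u)
      rw [← hr2, hr0] at this
      nlinarith
    rw [hcos, hsin, hr0]
    simpa [hb] using hexp
  · refine ⟨Real.arccos α, fun u => β u / r, ?_, ?_⟩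
    · simp only [div_pow, ← Finset.sum_div, ← hr2]
      exact div_self (pow_ne_zero 2 hr0)
    · rw [hcos, hsin, Finset.smul_sum]
      refine hexp.trans (congrArg _ (Finset.sum_congr rfl fun u _ => ?_))
      rw [smul_smul, mul_div_cancel₀ _ hr0]

/-- The great circle. -/
def circ (θ : ℝ) (w : Fin 3 → ℝ) (x : R4) (s : ℝ) : R4 :=
  Real.cos (s * θ) • x + Real.sin (s * θ) • ∑ u, w u • mulR u x

theorem hasDerivAt_circ {θ : ℝ} {w : Fin 3 → ℝ} (hw : ∑ u, w u ^ 2 = 1) (x : R4) (s : ℝ) :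
    HasDerivAt (circ θ w x) (∑ u, (θ * w u) • mulR u (circ θ w x s)) s := by
  have hm : HasDerivAt (fun s : ℝ => s * θ) θ s := hasDerivAt_mul_const θ
  refine ((hm.cos.smul_const x).add (hm.sin.smul_const _)).congr_deriv ?_
  simp only [Fin.sum_univ_three] at hw
  funext i
  fin_cases i <;> simp [circ, mulR, Fin.sum_univ_three]
  · linear_combination (Real.sin (s * θ) * θ * x 0) * hw
  · linear_combination (Real.sin (s * θ) * θ * x 1) * hw
  · linear_combination (Real.sin (s * θ) * θ * x 2) * hw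
  · linear_combination (Real.sin (s * θ) * θ * x 3) * hw

theorem sum_sq_circ {θ : ℝ} {w : Fin 3 → ℝ} (hw : ∑ u, w u ^ 2 = 1) {x : R4}
    (hx : ∑ i, x i ^ 2 = 1) (s : ℝ) : ∑ i, circ θ w x s i ^ 2 = 1 := by
  have h := Real.cos_sq_add_sin_sq (s * θ)
  simp only [Fin.sum_univ_three] at hw
  simp only [Fin.sum_univ_four] at hx ⊢
  simp [circ, mulR, Fin.sum_univ_three]
  linear_combination (x 0 ^ 2 + x 1 ^ 2 + x 2 ^ 2 + x 3 ^ 2) * (Real.sin (s * θ)) ^ 2 * hw
    + (Real.cos (s * θ) ^ 2 + Real.sin (s * θ) ^ 2) * hx + h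

theorem analyticAt_circ (θ : ℝ) (w : Fin 3 → ℝ) (x : R4) (s : ℝ) :
    AnalyticAt ℝ (circ θ w x) s := by
  have hm : AnalyticAt ℝ (fun s : ℝ => s * θ) s := analyticAt_id.mul analyticAt_const
  exact ((Real.analyticAt_cos.fun_comp hm).smul analyticAt_const).add
    ((Real.analyticAt_sin.fun_comp hm).smul analyticAt_const)

/-- The product of the unit spheres. -/
def Unit2 (z : R44) : Prop := ∑ i, z.1 i ^ 2 = 1 ∧ ∑ i, z.2 i ^ 2 = 1

theorem exists_curve {z y : R44} (hz : Unit2 z) (hy : Unit2 y) :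
    ∃ C : ℝ → R44, ∃ a : Fld → ℝ, C 0 = z ∧ C 1 = y ∧ (∀ s, Unit2 (C s)) ∧
      (∀ s, AnalyticAt ℝ C s) ∧
      ∀ s, HasDerivAt C (∑ k, a k • (Slot.R k.1).field k.2 (C s)) s := by
  obtain ⟨θ, w, hw, e1⟩ := exists_circle hz.1 hy.1
  obtain ⟨φ, v, hv, e2⟩ := exists_circle hz.2 hy.2
  refine ⟨fun s => (circ θ w z.1 s, circ φ v z.2 s),
    fun k => if k.1 = 0 then θ * w k.2 else φ * v k.2, ?_, ?_, ?_, ?_, ?_⟩
  · simp [circ]
  · simp [circ, ← e1, ← e2]
  · exact fun s => ⟨sum_sq_circ hw hz.1 s, sum_sq_circ hv hz.2 s⟩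
  · exact fun s => (analyticAt_circ θ w z.1 s).prod (analyticAt_circ φ v z.2 s)
  · intro s
    refine ((hasDerivAt_circ hw z.1 s).prodMk (hasDerivAt_circ hv z.2 s)).congr_deriv ?_
    rw [Fintype.sum_prod_type, Fin.sum_univ_two]
    simp [Slot.field, Prod.ext_iff, Prod.fst_sum, Prod.snd_sum]

theorem analyticAt_ev (p : Pol) {C : ℝ → R44} {s : ℝ} (hC : AnalyticAt ℝ C s) :
    AnalyticAt ℝ (fun t => ev p (C t)) s := by
  induction p using MvPolynomial.induction_on with
  | C c => simp only [Sphere.ev_apply, eval_C]; exact analyticAt_const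
  | add p q hp hq => simp only [map_add, Pi.add_apply]; exact hp.add hq
  | mul_X p v hp =>
    simp only [Sphere.ev_mul, Sphere.ev_X, ← Sphere.entCLM_apply]
    exact hp.mul (((Sphere.entCLM v).analyticAt _).fun_comp hC)

/-- A polynomial that vanishes near a point of the spheres along every curve vanishes on them. -/
theorem eq_zero_of_mul_eq_zero {p q : Pol} (h : ∀ z, Unit2 z → ev p z * ev q z = 0)
    {z : R44} (hz : Unit2 z) (hp : ev p z ≠ 0) {y : R44} (hy : Unit2 y) : ev q y = 0 := by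
  obtain ⟨C, a, h0, h1, hC, han, -⟩ := exists_curve hz hy
  have hq : AnalyticOnNhd ℝ (fun t => ev q (C t)) Set.univ := fun t _ => analyticAt_ev q (han t)
  have hev : (fun t => ev q (C t)) =ᶠ[𝓝 (0 : ℝ)] 0 := by
    have hc : ContinuousAt (fun t => ev p (C t)) 0 := (analyticAt_ev p (han 0)).continuousAt
    filter_upwards [hc.eventually_ne (by simpa [h0] using hp)] with t ht
    exact (mul_eq_zero.1 (h _ (hC t))).resolve_left ht
  have := hq.eqOn_zero_of_preconnected_of_eventuallyEq_zero isPreconnected_univ (Set.mem_univ _) hev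
    (Set.mem_univ 1)
  simpa [h1] using this

/-- Vanishing gradient on the spheres forces a constant. -/
theorem const_of_grad_eq_zero {p : Pol}
    (h : ∀ (k : Fld) z, Unit2 z → ev ((Slot.R k.1).rder k.2 p) z = 0)
    {z y : R44} (hz : Unit2 z) (hy : Unit2 y) : ev p z = ev p y := by
  obtain ⟨C, a, h0, h1, hC, -, hd⟩ := exists_curve hz hy
  have hdiff : ∀ s, HasDerivAt (fun t => ev p (C t)) 0 s := fun s => by
    refine (((Sphere.contDiff_ev p (n := 1)).differentiable one_ne_zero (C s)).hasFDerivAt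
      |>.comp_hasDerivAt s (hd s)).congr_deriv ?_
    rw [map_sum]
    exact Finset.sum_eq_zero fun k _ => by
      rw [map_smul, Slot.fderiv_ev, h k _ (hC s), smul_zero]
  have := is_const_of_deriv_eq_zero (fun s => (hdiff s).differentiableAt)
    (fun s => (hdiff s).deriv) 0 1
  simpa [h0, h1] using this

/-! ### The pairing -/

theorem unit2_crd2 (x : N2) : Unit2 (crd2 x) :=
  ⟨Sphere.sum_crd_sq x.1, Sphere.sum_crd_sq x.2⟩

/-- A real polynomial function. -/
def IsRe (p : Pol) : Prop := ∀ z, conj (ev p z) = ev p z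

theorem IsRe.rder {p : Pol} (hp : IsRe p) (s : Slot) (u : Fin 3) : IsRe (s.rder u p) := fun z => by
  rw [← Sphere.Slot.ev_rder_pc,
    s.ev_rder_congr u (funext fun w => by rw [Sphere.ev_pc, hp w] : ev (Sphere.pc p) = ev p)]

theorem IsRe.ofReal_re {p : Pol} (hp : IsRe p) (z : R44) : (((ev p z).re : ℝ) : ℂ) = ev p z :=
  Complex.conj_eq_iff_re.1 (hp z)

/-- The six derivatives. -/
def grad (p : Pol) (z : R44) (k : Fld) : ℝ := (ev ((Slot.R k.1).rder k.2 p) z).re

theorem grad_eq_fderiv (p : Pol) (z : Sph) (k : Fld) :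
    grad p z k = fderiv ℝ (fun w => (ev p w).re) z (sfield k z) := by
  have hd := ((Sphere.contDiff_ev p (n := 1)).differentiable one_ne_zero z).hasFDerivAt
  rw [show (fun w => (ev p w).re) = Complex.reCLM ∘ ev p from rfl,
    (Complex.reCLM.hasFDerivAt.comp z hd).fderiv, sfield_eq]
  simp [grad, Slot.fderiv_ev]

/-- The bracket of one tensor, as a polynomial. -/
def brk (e : NilIdx) (p q : Pol) : Pol :=
  ∑ k, ∑ l, (symN e k l : ℂ) • ((Slot.R k.1).rder k.2 p * (Slot.R l.1).rder l.2 q)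

theorem ev_brk {p q : Pol} (hp : IsRe p) (hq : IsRe q) (e : NilIdx) (z : R44) :
    ev (brk e p q) z = ((grad p z ⬝ᵥ (symN e *ᵥ grad q z) : ℝ) : ℂ) := by
  simp only [brk, map_sum, Finset.sum_apply, map_smul, Pi.smul_apply, Sphere.ev_mul, smul_eq_mul,
    dotProduct, mulVec, Complex.ofReal_sum, Complex.ofReal_mul, Finset.mul_sum, grad,
    (hp.rder _ _).ofReal_re, (hq.rder _ _).ofReal_re]
  exact Finset.sum_congr rfl fun k _ => Finset.sum_congr rfl fun l _ => by ring

theorem exists_grad_pair {p q : Pol} (hp : IsRe p) (hq : IsRe q)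
    (hp' : ∃ z y, Unit2 z ∧ Unit2 y ∧ ev p z ≠ ev p y)
    (hq' : ∃ z y, Unit2 z ∧ Unit2 y ∧ ev q z ≠ ev q y) :
    ∃ e z, Unit2 z ∧ ev (brk e p q) z ≠ 0 := by
  obtain ⟨z0, y0, hz0, hy0, hne⟩ := hp'
  obtain ⟨z1, y1, hz1, hy1, hne'⟩ := hq'
  obtain ⟨k, z, hz, hk⟩ : ∃ k z, Unit2 z ∧ ev ((Slot.R (k : Fld).1).rder k.2 p) z ≠ 0 := by
    by_contra h
    push Not at h
    exact hne (const_of_grad_eq_zero h hz0 hy0)
  obtain ⟨l, y, hy, hl⟩ : ∃ l y, Unit2 y ∧ ev ((Slot.R (l : Fld).1).rder l.2 q) y ≠ 0 := by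
    by_contra h
    push Not at h
    exact hne' (const_of_grad_eq_zero h hz1 hy1)
  obtain ⟨w, hw, hwk, hwl⟩ : ∃ w, Unit2 w ∧ ev ((Slot.R k.1).rder k.2 p) w ≠ 0 ∧
      ev ((Slot.R l.1).rder l.2 q) w ≠ 0 := by
    by_contra h
    push Not at h
    exact hl (eq_zero_of_mul_eq_zero (fun w hw => mul_eq_zero.2 <| by
      by_cases h' : ev ((Slot.R k.1).rder k.2 p) w = 0
      · exact Or.inl h'
      · exact Or.inr (h w hw h')) hz hk hy)
  have g1 : grad p w ≠ 0 := fun e => hwk (by
    rw [← (hp.rder _ _).ofReal_re w, show (ev _ w).re = grad p w k from rfl, e]; simp)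
  have g2 : grad q w ≠ 0 := fun e => hwl (by
    rw [← (hq.rder _ _).ofReal_re w, show (ev _ w).re = grad q w l from rfl, e]; simp)
  obtain ⟨e, he⟩ := exists_pair_ne_zero g1 g2
  exact ⟨e, w, hw, by rw [ev_brk hp hq]; exact_mod_cast he⟩

/-- The first order of some insertion pairs nontrivially with two nonconstant functions. -/
theorem exists_integral_ne_zero {p q : Pol} (hp : IsRe p) (hq : IsRe q)
    (hp' : ∃ z y, Unit2 z ∧ Unit2 y ∧ ev p z ≠ ev p y)
    (hq' : ∃ z y, Unit2 z ∧ Unit2 y ∧ ev q z ≠ ev q y) :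
    ∃ (e : NilIdx) (F : Pol), IsRe F ∧
      ∫ x, (ev F (crd2 x)).re * (grad p (crd2 x) ⬝ᵥ (symN e *ᵥ grad q (crd2 x))) ∂haarN ≠ 0 := by
  obtain ⟨e, z, hz, hne⟩ := exists_grad_pair hp hq hp' hq'
  have hre : IsRe (brk e p q) := fun w => by rw [ev_brk hp hq, Complex.conj_ofReal]
  refine ⟨e, brk e p q, hre, fun h0 => hne ?_⟩
  obtain ⟨x, rfl⟩ := Sphere.exists_crd2 hz.1 hz.2
  have hK : brk e p q ∈ Sphere.K := by
    refine Sphere.ip_self_eq_zero.1 ?_
    rw [Sphere.ip_self, Complex.ofReal_eq_zero, ← h0]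
    refine integral_congr_ae (Filter.Eventually.of_forall fun y => ?_)
    simp only [Sphere.evN_apply, ev_brk hp hq, Complex.normSq_ofReal, Complex.ofReal_re]
  exact Sphere.mem_K.1 hK x

/-! ### Finite combinations of the basis -/

/-- A combination of the real basis. -/
def comb (s : Finset St) (c : St → ℝ) : Pol := ∑ i ∈ s, (c i : ℂ) • Sphere.Q i

theorem isRe_comb (s : Finset St) (c : St → ℝ) : IsRe (comb s c) := fun z => by
  simp [comb, Sphere.conj_ev_Q]

theorem re_comb (s : Finset St) (c : St → ℝ) (z : R44) :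
    (ev (comb s c) z).re = ∑ i ∈ s, c i * Sphere.Y i z := by
  simp [comb, Sphere.Y]

theorem grad_comb (s : Finset St) (c : St → ℝ) (z : R44) (k : Fld) :
    grad (comb s c) z k = ∑ i ∈ s, c i * fderiv ℝ (Sphere.Y i) z (sfield k z) := by
  have hY : ∀ i, fderiv ℝ (Sphere.Y i) z (sfield k z) = grad (Sphere.Q i) z k := fun i =>
    (grad_eq_fderiv (Sphere.Q i) z k).symm
  simp [grad, comb, hY]

/-- Cross-section functions with a coefficient off the zero level are not constant. -/
theorem nonconst_comb {s : Finset St} {c : St → ℝ} {i : St} (hi : i ∈ s) (hc : c i ≠ 0)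
    (hl : i.blk.level 0 ≠ 0) :
    ∃ z y, Unit2 z ∧ Unit2 y ∧ ev (comb s c) z ≠ ev (comb s c) y := by
  by_contra h
  push Not at h
  obtain ⟨r, hr⟩ : ∃ r : Fin 3, ![i.1.la, i.1.lb, i.1.lc] r ≠ 0 := by
    by_contra h'
    push Not at h'
    exact hl (Prod.ext (h' 0) (h' 1))
  have hQ : Sphere.ip (Sphere.Q i) (1 : Pol) = 0 := by
    have h2 := Sphere.Slot.ip_cas (Sphere.slotOf r) (Sphere.Q i) (1 : Pol)
    rw [Sphere.ip_congr (Sphere.evN_congr (Sphere.ev_cas_Q i r)) rfl, Sphere.ip_smul_left,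
      show (Sphere.slotOf r).triple.cas (1 : Pol) = 0 by simp [Slot.cas_triple_apply],
      Sphere.ip_mem_K_right _ (zero_mem _)] at h2
    refine (mul_eq_zero.1 h2).resolve_left ?_
    simp only [Complex.conj_ofReal, Complex.ofReal_eq_zero, Blk.cas]
    have : (0 : ℝ) < (![i.1.la, i.1.lb, i.1.lc] r : ℕ) := by
      exact_mod_cast Nat.pos_of_ne_zero hr
    positivity
  have hp : evN (comb s c) = evN (ev (comb s c) (crd2 1) • (1 : Pol)) := funext fun x => by
    simp [Sphere.evN_apply, h _ _ (unit2_crd2 x) (unit2_crd2 1), Sphere.ev_apply]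
  have e : Sphere.ip (Sphere.Q i) (comb s c) = c i := by
    rw [comb, Sphere.ip_sum_right]
    simp only [Sphere.ip_smul_right, Sphere.ip_Q, mul_ite, mul_one, mul_zero,
      Finset.sum_ite_eq, if_pos hi]
  rw [Sphere.ip_congr rfl hp, Sphere.ip_smul_right, hQ, mul_zero] at e
  exact hc (by exact_mod_cast e.symm)

/-- Two combinations off the zero level pair nontrivially through some insertion. -/
theorem exists_pairing_ne_zero {s t : Finset St} {c d : St → ℝ}
    (hc : ∃ i ∈ s, c i ≠ 0 ∧ i.blk.level 0 ≠ 0) (hd : ∃ i ∈ t, d i ≠ 0 ∧ i.blk.level 0 ≠ 0) :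
    ∃ (e : NilIdx) (F : Pol), IsRe F ∧
      ∫ x, (ev F (crd2 x)).re *
        ((fun k => ∑ i ∈ s, c i * fderiv ℝ (Sphere.Y i) (crd2 x) (sfield k (crd2 x))) ⬝ᵥ
          (symN e *ᵥ fun k => ∑ i ∈ t, d i * fderiv ℝ (Sphere.Y i) (crd2 x) (sfield k (crd2 x))))
        ∂haarN ≠ 0 := by
  obtain ⟨i, hi, h1, h2⟩ := hc
  obtain ⟨j, hj, h3, h4⟩ := hd
  obtain ⟨e, F, hF, hne⟩ := exists_integral_ne_zero (isRe_comb s c) (isRe_comb t d)
    (nonconst_comb hi h1 h2) (nonconst_comb hj h3 h4)
  refine ⟨e, F, hF, ?_⟩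
  simpa only [← grad_comb] using hne

end

end Vale.Agent.P225.InsTensor
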