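import Vale.Agent.P225.Model.BaseMaps
import Vale.Agent.P225.Alg.Model.Junction

/-!
P225, model fields (helper1): the frame matrices of the isometries of the three junctions and their
match with the pull-backs `Alg.isoJ`.
-/

namespace Vale.Agent.P225.Model

open scoped BigOperators ContDiff
open Set Matrix Finset

noncomputable section

/-- A frame map realises a pull-back on the spheres. -/
def Pairs (F : FrameMap) (P : Sphere.Pullback) : Prop :=
  ∀ x, F.g (Sphere.crd2 x) = Sphere.crd2 (P.g x)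

theorem Pairs.comp {F G : FrameMap} {P Q : Sphere.Pullback} (h : Pairs F P) (h' : Pairs G Q) :
    Pairs (F.comp G) (P.trans Q) := fun x => by
  show G.g (F.g _) = Sphere.crd2 (Q.g (P.g x))
  rw [h, h']

theorem crd_mul (p q : Quaternion ℝ) :
    Sphere.crd (p * q) = qprod (Sphere.crd p) (Sphere.crd q) := by
  funext i
  fin_cases i <;> simp [Sphere.crd, qprod]

theorem crd_one : Sphere.crd 1 = ![1, 0, 0, 0] := by
  funext i
  fin_cases i <;> simp [Sphere.crd, Quaternion.re_one, Quaternion.imI_one, Quaternion.imJ_one,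
    Quaternion.imK_one]

theorem crd_inv (q : Sphere.S3) :
    Sphere.crd (q : Quaternion ℝ)⁻¹ = qconj (Sphere.crd q) := by
  have h : Quaternion.normSq (q : Quaternion ℝ) = 1 := by
    rw [Quaternion.normSq_eq_norm_mul_self, mem_sphere_zero_iff_norm.1 q.2, one_mul]
  rw [Quaternion.inv_def, h, inv_one, one_smul]
  funext i
  fin_cases i <;> simp [Sphere.crd, qconj]

theorem nsq_crd (q : Sphere.S3) : nsq (Sphere.crd q) = 1 := Sphere.sum_crd_sq q

theorem qprod_one (x : V4) : qprod x ![1, 0, 0, 0] = x := by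
  funext i
  fin_cases i <;> simp [qprod]

namespace FactorMap

/-- Right translation by a point of the sphere. -/
def rightS (h : Sphere.S3) : FactorMap := right (Sphere.crd h) (nsq_crd h)

/-- No map. -/
def one : FactorMap := rightS 1

theorem one_g (x : V4) : one.g x = x := by
  show qprod x (Sphere.crd ((1 : Sphere.S3) : Quaternion ℝ)) = x
  rw [Metric.unitSphere.coe_one, crd_one, qprod_one]

/-- The inversion for the left side, nothing for the right side. -/
def side (s : Fin 2) : FactorMap := if s = 0 then inv else one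

/-- An orthogonal frame matrix on the sphere. -/
def Orth (φ : FactorMap) : Prop := ∀ x, nsq x = 1 → φ.B x * (φ.B x)ᵀ = 1

theorem orth_right (c : V4) (hc : nsq c = 1) : (right c hc).Orth := fun _ _ => by
  show rotM c * (rotM c)ᵀ = 1
  rw [rotM_orth, hc, one_pow, one_smul]

theorem orth_inv : inv.Orth := fun x hx => by
  show -(rotM x)ᵀ * (-(rotM x)ᵀ)ᵀ = 1
  rw [transpose_neg, transpose_transpose, neg_mul_neg, rotM_orth', hx, one_pow, one_smul]

theorem orth_rightS (h : Sphere.S3) : (rightS h).Orth := orth_right _ (nsq_crd h)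

theorem orth_one : one.Orth := orth_rightS 1

theorem orth_side (s : Fin 2) : (side s).Orth := by
  unfold side
  split_ifs
  exacts [orth_inv, orth_one]

end FactorMap

/-- The map of a frame carries the weights `w` to `w'`. -/
def Fix (T : FrameMap) (w w' : Fin 3 → ℝ) : Prop :=
  ∀ z, OnS z → T.A z * gram w * (T.A z)ᵀ = gram w'

theorem Fix.comp {T S : FrameMap} {w w' w'' : Fin 3 → ℝ} (hS : Fix S w w') (hT : Fix T w' w'') :
    Fix (T.comp S) w w'' := fun z hz => by
  show T.A z * S.A (T.g z) * gram w * (T.A z * S.A (T.g z))ᵀ = _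
  rw [← hT z hz, ← hS _ (T.maps z hz), transpose_mul]
  simp only [Matrix.mul_assoc]

theorem fix_prod {φ ψ : FactorMap} (hφ : φ.Orth) (hψ : ψ.Orth) {w : Fin 3 → ℝ} (hw : w 2 = 0) :
    Fix (.prod φ ψ) w w := by
  intro z hz
  have e0 := fun a b => congrFun₂ (hφ z.1 hz.1) a b
  have e1 := fun a b => congrFun₂ (hψ z.2 hz.2) a b
  simp only [mul_apply, transpose_apply, one_apply] at e0 e1
  ext ⟨f, a⟩ ⟨g, b⟩
  show (FrameMap.prodA φ ψ z * gram w * (FrameMap.prodA φ ψ z)ᵀ) (f, a) (g, b) = _
  simp only [mul_apply, transpose_apply, Fintype.sum_prod_type, Fin.sum_univ_two, FrameMap.prodA,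
    gram, of_apply]
  fin_cases f <;> fin_cases g <;>
    simp [hw, mul_comm _ (w 0), mul_comm _ (w 1), mul_assoc, ← Finset.mul_sum, e0, e1]

theorem fix_cyc (w : Fin 3 → ℝ) : Fix .cyc w (rotW 1 w) := by
  intro z hz
  have e := rotM_orth' z.1
  rw [show nsq z.1 = 1 from hz.1, one_pow, one_smul] at e
  have e0 := fun a b => congrFun₂ e a b
  simp only [mul_apply, transpose_apply, one_apply] at e0
  ext ⟨f, a⟩ ⟨g, b⟩
  show (FrameMap.cycA z * gram w * (FrameMap.cycA z)ᵀ) (f, a) (g, b) = _
  simp only [mul_apply, transpose_apply, Fintype.sum_prod_type, Fin.sum_univ_two, FrameMap.cycA,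
    gram, of_apply]
  have h2 : (2 : Fin 3) - 1 = 1 := rfl
  have h0 : (0 : Fin 3) - 1 = 2 := rfl
  have ec : ∀ (c : ℝ) (a b : Fin 3),
      ∑ j, rotM z.1 j a * c * rotM z.1 j b = c * if a = b then 1 else 0 := fun c a b => by
    rw [← e0 a b, Finset.mul_sum]
    exact Finset.sum_congr rfl fun j _ => by ring
  have en : ∀ (c : ℝ) (a b : Fin 3),
      ∑ j, -(rotM z.1 j a * c * rotM z.1 j b) = -(c * if a = b then 1 else 0) := fun c a b => by
    rw [← ec c a b, Finset.sum_neg_distrib]
  fin_cases f <;> fin_cases g <;>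
    simp [FrameMap.cycK, rotW, h0, h2, ec, en, add_mul, Finset.sum_add_distrib] <;>
    split_ifs <;> ring

/-- No map, on both factors. -/
def idM : FrameMap := .prod .one .one

theorem pairs_prod {φ ψ : FactorMap} {P : Sphere.Pullback}
    (h : ∀ x, Sphere.crd2 (P.g x) = (φ.g (Sphere.crd x.1), ψ.g (Sphere.crd x.2))) :
    Pairs (.prod φ ψ) P := fun x => (h x).symm

theorem pairs_one : Pairs idM .one :=
  pairs_prod fun x => by simp [Sphere.Pullback.one, Sphere.crd2, FactorMap.one_g]

theorem pairs_cyc : Pairs .cyc .cyc := fun x => by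
  show (qprod _ (qconj _), qconj _) = _
  simp [Sphere.crd2, Sphere.Pullback.cyc, Sphere.Pullback.cycFun, Metric.unitSphere.coe_mul,
    crd_mul, crd_inv]

/-- The relabelling from `J3` to the junction `J`. -/
def cycTM (J : Fin 3) : FrameMap := ![idM, .cyc, FrameMap.cyc.comp .cyc] J

/-- The relabelling from the junction `J` to `J3`. -/
def cycIM (J : Fin 3) : FrameMap := ![idM, FrameMap.cyc.comp .cyc, .cyc] J

theorem pairs_cycT (J : Fin 3) : Pairs (cycTM J) (Alg.cycT J) := by
  fin_cases J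
  exacts [pairs_one, pairs_cyc, pairs_cyc.comp pairs_cyc]

theorem pairs_cycI (J : Fin 3) : Pairs (cycIM J) (Alg.cycInv J) := by
  fin_cases J
  exacts [pairs_one, pairs_cyc.comp pairs_cyc, pairs_cyc]

/-- The isometries of `J3`. -/
def isoTM (e : Alg.IsoIdx) : FrameMap :=
  ((FrameMap.prod (.side e.1.1) .one).comp (.prod .one (.side e.1.2))).comp
    (.prod (.rightS (Alg.listH e.2.1 e.2.2)) .one)

theorem pairs_side (s : Fin 2) :
    Pairs (.prod (.side s) .one) (Alg.sideMap 0 s) ∧
      Pairs (.prod .one (.side s)) (Alg.sideMap 1 s) := by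
  fin_cases s <;> refine ⟨pairs_prod fun x => ?_, pairs_prod fun x => ?_⟩ <;>
    simp [Alg.sideMap, FactorMap.side, FactorMap.one_g, Sphere.Pullback.one, Sphere.Pullback.inv,
      Sphere.Pullback.invFun, Sphere.crd2, crd_inv, FactorMap.inv]

theorem pairs_isoT (e : Alg.IsoIdx) : Pairs (isoTM e) (Alg.isoT e) :=
  ((pairs_side _).1.comp (pairs_side _).2).comp
    (pairs_prod fun x => by
      simp [Sphere.Pullback.rightT, Sphere.crd2, FactorMap.one_g, FactorMap.rightS,
        FactorMap.right, Prod.mul_def, crd_mul])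

/-- The isometries of the junction `J`. -/
def isoM (J : Fin 3) (e : Alg.IsoIdx) : FrameMap := (cycTM J).comp ((isoTM e).comp (cycIM J))

theorem pairs_isoM (J : Fin 3) (e : Alg.IsoIdx) : Pairs (isoM J e) (Alg.isoJ J e) :=
  (pairs_cycT J).comp ((pairs_isoT e).comp (pairs_cycI J))

theorem fix_isoTM (e : Alg.IsoIdx) {w : Fin 3 → ℝ} (hw : w 2 = 0) : Fix (isoTM e) w w :=
  (fix_prod (FactorMap.orth_rightS _) FactorMap.orth_one hw).comp
    ((fix_prod FactorMap.orth_one (FactorMap.orth_side _) hw).comp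
      (fix_prod (FactorMap.orth_side _) FactorMap.orth_one hw))

theorem rotW_zero (w : Fin 3 → ℝ) : rotW 0 w = w := funext fun i => by simp [rotW]

theorem rotW_rotW (m n : Fin 3) (w : Fin 3 → ℝ) : rotW m (rotW n w) = rotW (m + n) w :=
  funext fun i => by simp only [rotW, sub_sub]

theorem rawExc_two : rawExc 0 2 = 0 := by simp [rawExc]

/-- The isometries keep the weights of their junction. -/
theorem fix_isoM (J : Fin 3) (e : Alg.IsoIdx) :
    Fix (isoM J e) (rotW J (rawExc 0)) (rotW J (rawExc 0)) := by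
  have hid : ∀ w : Fin 3 → ℝ, w 2 = 0 → Fix idM w w := fun w hw =>
    fix_prod FactorMap.orth_one FactorMap.orth_one hw
  have h2 : ∀ w : Fin 3 → ℝ, Fix (FrameMap.cyc.comp .cyc) w (rotW 2 w) := fun w => by
    have := (fix_cyc w).comp (fix_cyc (rotW 1 w))
    rwa [rotW_rotW] at this
  have hI : Fix (cycIM J) (rotW J (rawExc 0)) (rawExc 0) := by
    fin_cases J
    · simpa [cycIM, rotW_zero] using hid _ rawExc_two
    · simpa [cycIM, rotW_rotW, show (2 : Fin 3) + 1 = 0 from rfl, rotW_zero] using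
        h2 (rotW 1 (rawExc 0))
    · simpa [cycIM, rotW_rotW, show (1 : Fin 3) + 2 = 0 from rfl, rotW_zero] using
        fix_cyc (rotW 2 (rawExc 0))
  have hT : Fix (cycTM J) (rawExc 0) (rotW J (rawExc 0)) := by
    fin_cases J
    · simpa [cycTM, rotW_zero] using hid _ rawExc_two
    · simpa [cycTM] using fix_cyc (rawExc 0)
    · simpa [cycTM] using h2 (rawExc 0)
  exact (hI.comp (fix_isoTM e rawExc_two)).comp hT

/-- The isometry with a given number. -/
def isoIdx (g : ℕ) : Alg.IsoIdx :=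
  (Fintype.equivFinOfCardEq (show Fintype.card Alg.IsoIdx = 48 by simp)).symm (Fin.ofNat 48 g)

/-- The number of an isometry. -/
def isoNum (e : Alg.IsoIdx) : ℕ :=
  (Fintype.equivFinOfCardEq (show Fintype.card Alg.IsoIdx = 48 by simp) e : ℕ)

theorem isoIdx_isoNum (e : Alg.IsoIdx) : isoIdx (isoNum e) = e := by
  unfold isoIdx isoNum
  rw [show Fin.ofNat 48 _ = _ from Fin.ofNat_val_eq_self _, Equiv.symm_apply_apply]

/-- The frame matrix of isometry `g` of the junction `J`. -/
def isoA (J : Fin 3) (g : ℕ) (z : Sph) : M6 := (isoM J (isoIdx g)).A (nz2 z)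

theorem isoA_of_onS (J : Fin 3) (g : ℕ) {z : Sph} (hz : OnS z) :
    isoA J g z = (isoM J (isoIdx g)).A z := by rw [isoA, nz2_eq hz]

theorem isoA_fix (J : Fin 3) (g : ℕ) (z : Sph) :
    isoA J g z * gram (rotW J (rawExc 0)) * (isoA J g z)ᵀ = gram (rotW J (rawExc 0)) :=
  fix_isoM J _ _ (onS_nz2 z)

theorem contDiffOn_isoA (J : Fin 3) (g : ℕ) (p q : Fin 2 × Fin 3) :
    ContDiffOn ℝ ∞ (fun z => isoA J g z p q) punct :=
  ((isoM J (isoIdx g)).smooth_A p q).comp_contDiffOn contDiffOn_nz2

/-- The inverse of the frame matrix. -/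
def isoB (J : Fin 3) (g : ℕ) (z : Sph) : M6 :=
  gram (rotW J (rawExc 0)) * (isoA J g z)ᵀ * (gram (rotW J (rawExc 0)))⁻¹

theorem det_juncGram (J : Fin 3) : (gram (rotW J (rawExc 0))).det = 1 := by
  rw [det_gram, wdet_rotW]
  simp [wdet, rawExc]

theorem isoA_mul_isoB (J : Fin 3) (g : ℕ) (z : Sph) : isoA J g z * isoB J g z = 1 := by
  rw [isoB, ← Matrix.mul_assoc, ← Matrix.mul_assoc, isoA_fix,
    mul_nonsing_inv _ (by rw [det_juncGram]; exact isUnit_one)]

theorem isoB_mul_isoA (J : Fin 3) (g : ℕ) (z : Sph) : isoB J g z * isoA J g z = 1 :=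
  mul_eq_one_comm.1 (isoA_mul_isoB J g z)

theorem contDiffOn_isoB (J : Fin 3) (g : ℕ) (p q : Fin 2 × Fin 3) :
    ContDiffOn ℝ ∞ (fun z => isoB J g z p q) punct := by
  simp only [isoB, mul_apply, transpose_apply]
  exact ContDiffOn.sum fun r _ => (ContDiffOn.sum fun s _ =>
    contDiffOn_const.mul (contDiffOn_isoA J g r s)).mul contDiffOn_const

end

end Vale.Agent.P225.Model
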