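import Vale.Agent.P225.Sphere.Deriv

/-!
P225, model fields (helper1): multiplication by a polynomial moves the levels of `J3` by at most a
bounded amount.
-/

namespace Vale.Agent.P225.Model

open MvPolynomial Vale.Agent.P225.Sphere
open scoped ComplexConjugate

noncomputable section

/-- The functions of levels up to `(a, b)`. -/
def Bd (a b : ℕ) : Submodule ℂ Pol :=
  (⨆ ab ∈ Finset.Iic a ×ˢ Finset.Iic b, M2 ab.1 ab.2) ⊔ K

theorem M2_le_Bd {c e a b : ℕ} (hc : c ≤ a) (he : e ≤ b) : M2 c e ≤ Bd a b :=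
  le_sup_of_le_left (le_iSup₂ (f := fun (ab : ℕ × ℕ) (_ : ab ∈ Finset.Iic a ×ˢ Finset.Iic b) =>
    M2 ab.1 ab.2) (c, e) (Finset.mem_product.2 ⟨Finset.mem_Iic.2 hc, Finset.mem_Iic.2 he⟩))

theorem K_le_Bd (a b : ℕ) : Sphere.K ≤ Bd a b := le_sup_right

theorem Bd_mono {a b a' b' : ℕ} (ha : a ≤ a') (hb : b ≤ b') : Bd a b ≤ Bd a' b' :=
  sup_le (iSup₂_le fun ab h => by
    simp only [Finset.mem_product, Finset.mem_Iic] at h
    exact M2_le_Bd (h.1.trans ha) (h.2.trans hb)) (K_le_Bd _ _)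

/-- A linear map that sends all pieces into a submodule sends `Bd` into it. -/
theorem Bd_induct {a b : ℕ} {S : Submodule ℂ Pol} (F : Pol →ₗ[ℂ] Pol)
    (h2 : ∀ c e, c ≤ a → e ≤ b → ∀ m ∈ M2 c e, F m ∈ S) (hK : ∀ m ∈ Sphere.K, F m ∈ S) {q : Pol}
    (hq : q ∈ Bd a b) : F q ∈ S := by
  refine (show Bd a b ≤ S.comap F from sup_le (iSup₂_le fun ab h => ?_) hK) hq
  simp only [Finset.mem_product, Finset.mem_Iic] at h
  exact fun m hm => h2 _ _ h.1 h.2 m hm

/-- A variable moves the levels by at most one. -/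
theorem M2_mul_X {c e : ℕ} {m : Pol} (h : m ∈ M2 c e) (v : Var) :
    m * X v ∈ Bd (c + 1) (e + 1) := by
  obtain ⟨g, i, j⟩ := v
  induction h using Submodule.mul_induction_on' with
  | add x _ y _ hx hy => rw [add_mul]; exact add_mem hx hy
  | mem_mul_mem x hx y hy =>
    obtain rfl | rfl : g = 0 ∨ g = 1 := by fin_cases g <;> simp
    · obtain ⟨u, hu, w, hw, e1⟩ := Submodule.mem_sup.1 (M1_mul_X 0 c hx i j)
      obtain ⟨u1, hu1, u2, hu2, rfl⟩ := Submodule.mem_sup.1 hu
      rw [mul_right_comm, ← e1, add_mul, add_mul]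
      exact add_mem (add_mem (M2_le_Bd le_rfl (by omega) (Submodule.mul_mem_mul hu1 hy))
        (M2_le_Bd (by omega) (by omega) (Submodule.mul_mem_mul hu2 hy)))
        (K_le_Bd _ _ (mul_mem_K hw y))
    · obtain ⟨u, hu, w, hw, e1⟩ := Submodule.mem_sup.1 (M1_mul_X 1 e hy i j)
      obtain ⟨u1, hu1, u2, hu2, rfl⟩ := Submodule.mem_sup.1 hu
      rw [mul_assoc, ← e1, mul_add, mul_add, mul_comm x w]
      exact add_mem (add_mem (M2_le_Bd (by omega) le_rfl (Submodule.mul_mem_mul hx hu1))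
        (M2_le_Bd (by omega) (by omega) (Submodule.mul_mem_mul hx hu2)))
        (K_le_Bd _ _ (mul_mem_K hw x))

theorem Bd_mul_X {a b : ℕ} {q : Pol} (hq : q ∈ Bd a b) (v : Var) : q * X v ∈ Bd (a + 1) (b + 1) :=
  Bd_induct (LinearMap.mulRight ℂ (X v))
    (fun c e hc he m hm => Bd_mono (by omega) (by omega) (M2_mul_X hm v))
    (fun m hm => K_le_Bd _ _ (mul_mem_K hm _)) hq

/-- Multiplication by a polynomial moves the levels by a bounded amount. -/
theorem exists_band (p : Pol) :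
    ∃ N, ∀ a b, ∀ q ∈ Bd a b, q * p ∈ Bd (a + N) (b + N) := by
  induction p using MvPolynomial.induction_on with
  | C c =>
    refine ⟨0, fun a b q hq => ?_⟩
    rw [mul_comm, ← smul_eq_C_mul]
    exact (Bd a b).smul_mem c hq
  | add p r hp hr =>
    obtain ⟨N, hN⟩ := hp
    obtain ⟨M, hM⟩ := hr
    refine ⟨max N M, fun a b q hq => ?_⟩
    rw [mul_add]
    exact add_mem (Bd_mono (by omega) (by omega) (hN a b q hq))
      (Bd_mono (by omega) (by omega) (hM a b q hq))
  | mul_X p v hp =>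
    obtain ⟨N, hN⟩ := hp
    refine ⟨N + 1, fun a b q hq => ?_⟩
    rw [← mul_assoc]
    exact Bd_mono (by omega) (by omega) (Bd_mul_X (hN a b q hq) v)

theorem cas_M1 (f : Fin 2) (a : ℕ) {x : Pol} (hx : x ∈ M1 f a) :
    (Slot.L f).triple.cas x = ((Blk.cas a : ℝ) : ℂ) • x := by
  induction hx using Submodule.span_induction with
  | mem x hx =>
    obtain ⟨⟨i, p⟩, rfl⟩ := hx
    unfold gen
    rw [Triple.cas_iterate (mono_HL f (by omega)) (mono_EL f a p), Blk.cas]
    push_cast
    rfl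
  | zero => simp
  | add x y _ _ hx hy => rw [map_add, hx, hy, smul_add]
  | smul c x _ hx => rw [map_smul, hx, smul_comm]

theorem cas_mul_const (s : Slot) {x y : Pol} (h : ∀ k, s.der k y = 0) :
    s.triple.cas (x * y) = s.triple.cas x * y := by
  simp only [Slot.cas_triple_apply, Derivation.leibniz, h, smul_eq_mul, mul_zero, zero_add, map_add,
    map_zero, add_mul, smul_mul_assoc, mul_comm y]

theorem cas_M2 {a b : ℕ} {m : Pol} (h : m ∈ M2 a b) :
    (Slot.L 0).triple.cas m = ((Blk.cas a : ℝ) : ℂ) • m ∧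
      (Slot.L 1).triple.cas m = ((Blk.cas b : ℝ) : ℂ) • m := by
  induction h using Submodule.mul_induction_on' with
  | add x _ y _ hx hy => simp [map_add, hx, hy]
  | mem_mul_mem x hx y hy =>
    constructor
    · rw [cas_mul_const _ fun k => M1_other (f := 1) (g := 0) (by decide) (Or.inl rfl) k hy,
        cas_M1 0 a hx, smul_mul_assoc]
    · rw [mul_comm x y,
        cas_mul_const _ fun k => M1_other (f := 0) (g := 1) (by decide) (Or.inl rfl) k hx,
        cas_M1 1 b hy, smul_mul_assoc]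

/-- On the group, a function with the two Casimir values of `(a, b)`. -/
def InLev (a b : ℕ) (p : Pol) : Prop :=
  evN ((Slot.L 0).triple.cas p) = evN (((Blk.cas a : ℝ) : ℂ) • p) ∧
    evN ((Slot.L 1).triple.cas p) = evN (((Blk.cas b : ℝ) : ℂ) • p)

theorem inLev_Q (i : St) : InLev i.blk.la i.blk.lb (Q i) :=
  ⟨evN_congr (ev_cas_Q i 0), evN_congr (ev_cas_Q i 1)⟩

theorem ip_eq_zero_of_eig (s : Slot) {p q : Pol} {c d : ℝ}
    (hp : evN (s.triple.cas p) = evN ((c : ℂ) • p))
    (hq : evN (s.triple.cas q) = evN ((d : ℂ) • q)) (h : c ≠ d) : ip p q = 0 := by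
  have e := s.ip_cas p q
  rw [ip_congr (q := q) hp rfl, ip_congr (p := p) rfl hq, ip_smul_left, ip_smul_right,
    Complex.conj_ofReal] at e
  have h2 : ((c : ℂ) - d) * ip p q = 0 := by linear_combination e
  exact (mul_eq_zero.1 h2).resolve_left (sub_ne_zero.2 (by exact_mod_cast h))

theorem ip_eq_zero_of_Bd {c e a b : ℕ} {x q : Pol} (hx : InLev c e x) (hq : q ∈ Bd a b)
    (h : a < c ∨ b < e) : ip x q = 0 := by
  refine (Submodule.mem_bot ℂ).1 ?_
  have : ipR x q ∈ (⊥ : Submodule ℂ ℂ) := by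
    refine (show Bd a b ≤ (⊥ : Submodule ℂ ℂ).comap (ipR x) from
      sup_le (iSup₂_le fun ab hab => ?_) fun m hm => ?_) hq
    · simp only [Finset.mem_product, Finset.mem_Iic] at hab
      intro m hm
      obtain ⟨h0, h1⟩ := cas_M2 hm
      refine (Submodule.mem_bot ℂ).2 ?_
      rw [ipR_apply]
      rcases h with h | h
      · exact ip_eq_zero_of_eig _ hx.1 (congrArg evN h0) fun e =>
          absurd (cas_injective e) (by omega)
      · exact ip_eq_zero_of_eig _ hx.2 (congrArg evN h1) fun e =>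
          absurd (cas_injective e) (by omega)
    · exact (Submodule.mem_bot ℂ).2 (by rw [ipR_apply, ip_mem_K_right _ hm])
  simpa [ipR_apply] using this

theorem Q_mem_Bd (i : St) : Q i ∈ Bd i.blk.la i.blk.lb := by
  have e : ∃ r ∈ Bd i.blk.la i.blk.lb, evN (Q i) = evN r := by
    have hZ : ∀ k : St, k.1 = i.1 → Z k ∈ Bd i.blk.la i.blk.lb := fun k hk => by
      obtain ⟨V, m⟩ := k
      obtain rfl : V = i.1 := hk
      exact Submodule.smul_mem _ _ (M2_le_Bd le_rfl le_rfl (bvec_mem _ _))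
    by_cases h1 : ordI i < ordI (opp i)
    · exact ⟨_, add_mem (Submodule.smul_mem _ _ (hZ i rfl))
        (Submodule.smul_mem _ _ (hZ (opp i) rfl)), by rw [evN_Q_lt h1, map_add, map_smul, map_smul]⟩
    by_cases h2 : ordI (opp i) < ordI i
    · exact ⟨_, add_mem (Submodule.smul_mem _ _ (hZ (opp i) rfl))
        (Submodule.smul_mem _ _ (hZ i rfl)), by rw [evN_Q_gt h2, map_add, map_smul, map_smul]⟩
    · exact ⟨_, Submodule.smul_mem _ _ (hZ i rfl), by rw [evN_Q_eq h1 h2, map_smul]⟩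
  obtain ⟨r, hr, e⟩ := e
  have hk : Q i - r ∈ Sphere.K := by rw [Sphere.K, LinearMap.mem_ker, map_sub, e, sub_self]
  simpa using add_mem hr (K_le_Bd _ _ hk)

/-- A function with the Casimir values of `(a, b)` lies in the levels up to `(a, b)`. -/
theorem InLev.mem_Bd {a b : ℕ} {p : Pol} (hp : InLev a b p) : p ∈ Bd a b := by
  obtain ⟨s, -, e⟩ := expansionQ p
  have hr : ∑ i ∈ s, cfQ p i • Q i ∈ Bd a b := by
    refine Submodule.sum_mem _ fun i _ => ?_
    by_cases h : i.blk.la = a ∧ i.blk.lb = b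
    · have := Submodule.smul_mem (Bd i.blk.la i.blk.lb) (cfQ p i) (Q_mem_Bd i)
      rwa [h.1, h.2] at this
    · have h0 : cfQ p i = 0 := by
        rcases not_and_or.1 h with h | h
        · exact ip_eq_zero_of_eig _ (inLev_Q i).1 hp.1 fun e => h (cas_injective e)
        · exact ip_eq_zero_of_eig _ (inLev_Q i).2 hp.2 fun e => h (cas_injective e)
      rw [h0, zero_smul]
      exact zero_mem _
  have hk : p - ∑ i ∈ s, cfQ p i • Q i ∈ Sphere.K := by
    rw [Sphere.K, LinearMap.mem_ker, map_sub, map_sum, e]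
    simp only [map_smul, sub_self]
  simpa using add_mem hr (K_le_Bd a b hk)

/-- The right fields keep the level. -/
theorem InLev.rder {a b : ℕ} {p : Pol} (hp : InLev a b p) (f : Fin 2) (u : Fin 3) :
    InLev a b ((Slot.R f).rder u p) := by
  have key : ∀ (g : Fin 2) (c : ℂ), evN ((Slot.L g).triple.cas p) = evN (c • p) →
      evN ((Slot.L g).triple.cas ((Slot.R f).rder u p)) = evN (c • (Slot.R f).rder u p) := by
    intro g c h
    have hk : ∀ k, evN ((Slot.L g).triple.cas ((Slot.R f).der k p))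
        = evN (c • (Slot.R f).der k p) := fun k => by
      rw [Slot.cas_commute (by simp [Slot.Indep]) k p, evN_der_congr _ k h, Derivation.map_smul]
    fin_cases u <;> simp [Slot.rder, map_smul, map_add, map_sub, hk] <;> module
  exact ⟨key 0 _ hp.1, key 1 _ hp.2⟩

end

end Vale.Agent.P225.Model
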