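import Vale.Agent.P225.Assembly.PieceOps
import Vale.Agent.P225.Model.Fields

/-!
P225, model fields (helper23): the model as `PieceOps`, and the blocks of an insertion in the
weighted coordinates `x_i = mu_i ^ s c_i` of the state space.
-/

namespace Vale.Agent.P225

open scoped BigOperators

noncomputable section

/-- The operators of the pieces for the model. -/
def Model.modelOps : PieceOps Model.modelF :=
  PieceOps.ofIso (fun _ _ _ => rfl) 10 le_rfl Model.ins1 Model.ins2
    (fun f e i _ hz => Model.crossLap_nil f e i hz) Model.ins_bound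

/-- Multiplication of the states of one level of `J3` by `c`. -/
def levDiag (g : ℕ × ℕ) (c : St → ℝ) : LevSp 0 g →L[ℝ] LevSp 0 g :=
  LinearMap.toContinuousLinearMap
    { toFun := fun v => WithLp.toLp 2 fun j => c j.1 * v j
      map_add' := fun u v => by ext j; simp [mul_add]
      map_smul' := fun r v => by ext j; simp [mul_left_comm] }

theorem levDiag_apply (g : ℕ × ℕ) (c : St → ℝ) (v : LevSp 0 g) (j : Fib 0 g) :
    levDiag g c v j = c j.1 * v j := rfl

theorem norm_levDiag_le (g : ℕ × ℕ) (c : St → ℝ) {M : ℝ} (hM : 0 ≤ M)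
    (h : ∀ j : St, j.blk.level 0 = g → |c j| ≤ M) : ‖levDiag g c‖ ≤ M := by
  refine ContinuousLinearMap.opNorm_le_bound _ hM fun v => ?_
  refine (pow_le_pow_iff_left₀ (norm_nonneg _) (mul_nonneg hM (norm_nonneg _)) two_ne_zero).1 ?_
  rw [mul_pow, EuclideanSpace.real_norm_sq_eq, EuclideanSpace.real_norm_sq_eq, Finset.mul_sum]
  refine Finset.sum_le_sum fun j _ => ?_
  rw [levDiag_apply, mul_pow]
  refine mul_le_mul_of_nonneg_right ?_ (sq_nonneg _)
  rw [← sq_abs]
  exact pow_le_pow_left₀ (abs_nonneg _) (h j.1 j.2) 2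

namespace InsOp

variable (O : InsOp) (s : ℕ)

/-- A block in the coordinates `x_i = mu_i ^ s c_i`. -/
def wBlock (g h : ℕ × ℕ) (B : LevSp 0 h →L[ℝ] LevSp 0 g) : LevSp 0 h →L[ℝ] LevSp 0 g :=
  ((levDiag g fun i => i.blk.mu ^ s).comp B).comp (levDiag h fun i => (i.blk.mu ^ s)⁻¹)

theorem norm_wBlock_le {g h : ℕ × ℕ} (hh : h ∈ bandSet O.N g) {B : LevSp 0 h →L[ℝ] LevSp 0 g}
    {M : ℝ} (hB : ‖B‖ ≤ M) :
    ‖wBlock s g h B‖ ≤ (2 * ((2 * O.N + 1 : ℕ) : ℝ)) ^ s * M := by
  set D : ℝ := ((2 * O.N + 1 : ℕ) : ℝ)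
  have hg := muL_pos g
  have hh0 := muL_pos h
  have hM : 0 ≤ M := (norm_nonneg _).trans hB
  have hgh : muL g ≤ D * muL h := by
    have hh' := mem_bandSet_comm.1 hh
    simp only [bandSet, Finset.mem_product, Finset.mem_Icc] at hh'
    have h1 : (g.1 : ℝ) ≤ h.1 + O.N := by exact_mod_cast hh'.1.2
    have h2 : (g.2 : ℝ) ≤ h.2 + O.N := by exact_mod_cast hh'.2.2
    have h3 : (O.N : ℝ) ≤ O.N * muL h :=
      le_mul_of_one_le_right (Nat.cast_nonneg _) (one_le_muL h)
    simp only [D, muL] at h3 ⊢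
    push_cast
    linarith
  have e1 : ‖levDiag g fun i => i.blk.mu ^ s‖ ≤ (2 * muL g) ^ s := by
    refine norm_levDiag_le g _ (by positivity) fun j hj => ?_
    rw [abs_of_nonneg (pow_nonneg (zero_le_one.trans (Blk.one_le_mu _)) s)]
    exact pow_le_pow_left₀ (zero_le_one.trans (Blk.one_le_mu _)) (hj ▸ mu_le_muL j) s
  have e2 : ‖levDiag h fun i => (i.blk.mu ^ s)⁻¹‖ ≤ (muL h ^ s)⁻¹ := by
    refine norm_levDiag_le h _ (by positivity) fun j hj => ?_
    rw [abs_of_nonneg (inv_nonneg.2 (pow_nonneg (zero_le_one.trans (Blk.one_le_mu _)) s))]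
    exact inv_anti₀ (by positivity) (pow_le_pow_left₀ hh0.le (hj ▸ muL_le_mu j) s)
  calc ‖wBlock s g h B‖
      ≤ (2 * muL g) ^ s * M * (muL h ^ s)⁻¹ :=
        (ContinuousLinearMap.opNorm_comp_le _ _).trans (mul_le_mul
          ((ContinuousLinearMap.opNorm_comp_le _ _).trans
            (mul_le_mul e1 hB (norm_nonneg _) (by positivity))) e2 (norm_nonneg _) (by positivity))
    _ ≤ (2 * (D * muL h)) ^ s * M * (muL h ^ s)⁻¹ := by gcongr
    _ = (2 * D) ^ s * M := by field_simp; ring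

/-- An insertion operator in the weighted coordinates. -/
def weighted : InsOp where
  N := O.N
  K := (2 * ((2 * O.N + 1 : ℕ) : ℝ)) ^ s * O.K
  K_nonneg := by have := O.K_nonneg; positivity
  O₁ g h := wBlock s g h (O.O₁ g h)
  O₂ g h := wBlock s g h (O.O₂ g h)
  band g h hh := by
    obtain ⟨e1, e2⟩ := O.band g h hh
    simp [wBlock, e1, e2]
  zero_row h := by
    obtain ⟨e1, e2⟩ := O.zero_row h
    simp [wBlock, e1, e2]
  norm_le g h := by
    have h0 : 0 ≤ (2 * ((2 * O.N + 1 : ℕ) : ℝ)) ^ s * O.K * muL g ^ 2 := by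
      have := O.K_nonneg; positivity
    by_cases hh : h ∈ bandSet O.N g
    · exact ⟨(O.norm_wBlock_le s hh (O.norm_le g h).1).trans_eq (mul_assoc _ _ _).symm,
        (O.norm_wBlock_le s hh (O.norm_le g h).2).trans_eq (mul_assoc _ _ _).symm⟩
    · obtain ⟨e1, e2⟩ := O.band g h hh
      simp only [wBlock, e1, e2, ContinuousLinearMap.comp_zero, ContinuousLinearMap.zero_comp,
        norm_zero]
      exact ⟨h0, h0⟩

end InsOp

/-- The weighted blocks of an insertion of the model: `x ↦ mu^s (O (mu^(-s) x))`. -/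
theorem Model.nilOpW_apply (f s : ℕ) (g h : ℕ × ℕ) (v : LevSp 0 h) (j : Fib 0 g) :
    ((Model.nilOp f).weighted s).O₁ g h v j
        = ∑ i, v i * ((j.1.blk.mu / i.1.blk.mu) ^ s * Model.ins1 f i.1 j.1) ∧
      ((Model.nilOp f).weighted s).O₂ g h v j
        = ∑ i, v i * ((j.1.blk.mu / i.1.blk.mu) ^ s * Model.ins2 f i.1 j.1) := by
  constructor <;>
    simp only [InsOp.weighted, InsOp.wBlock, ContinuousLinearMap.comp_apply, levDiag_apply]
  · rw [(Model.nilOp_apply f g h _ j).1, Finset.mul_sum]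
    refine Finset.sum_congr rfl fun i _ => ?_
    rw [levDiag_apply, div_pow]
    ring
  · rw [(Model.nilOp_apply f g h _ j).2, Finset.mul_sum]
    refine Finset.sum_congr rfl fun i _ => ?_
    rw [levDiag_apply, div_pow]
    ring

end

end Vale.Agent.P225
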