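import Vale.Agent.P225.Model.Calc

/-!
The rotation of imaginary quaternions by a quaternion: homogeneous identities and derivatives along
the right fields.
-/

namespace Vale.Agent.P225.Model

open scoped BigOperators ContDiff
open Set Matrix

noncomputable section

/-- `ℝ⁴`. -/
abbrev V4 := Fin 4 → ℝ

/-- The product of quaternions. -/
def qprod (p q : V4) : V4 :=
  ![p 0 * q 0 - p 1 * q 1 - p 2 * q 2 - p 3 * q 3, p 0 * q 1 + p 1 * q 0 + p 2 * q 3 - p 3 * q 2,
    p 0 * q 2 - p 1 * q 3 + p 2 * q 0 + p 3 * q 1, p 0 * q 3 + p 1 * q 2 - p 2 * q 1 + p 3 * q 0]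

/-- The conjugate. -/
def qconj (q : V4) : V4 := ![q 0, -q 1, -q 2, -q 3]

/-- The rotation `v ↦ q v q̄` of imaginary quaternions. -/
def rotM (q : V4) : Matrix (Fin 3) (Fin 3) ℝ :=
  !![q 0 * q 0 + q 1 * q 1 - q 2 * q 2 - q 3 * q 3, 2 * (q 1 * q 2 - q 0 * q 3),
      2 * (q 1 * q 3 + q 0 * q 2);
    2 * (q 1 * q 2 + q 0 * q 3), q 0 * q 0 - q 1 * q 1 + q 2 * q 2 - q 3 * q 3,
      2 * (q 2 * q 3 - q 0 * q 1);
    2 * (q 1 * q 3 - q 0 * q 2), 2 * (q 2 * q 3 + q 0 * q 1),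
      q 0 * q 0 - q 1 * q 1 - q 2 * q 2 + q 3 * q 3]

/-- The structure constants of one factor. -/
def eps (σ τ ρ : Fin 3) : ℝ := ((σ.val : ℝ) - τ.val) * (τ.val - ρ.val) * (ρ.val - σ.val)

theorem eps_swap (σ τ ρ : Fin 3) : eps σ τ ρ = -eps σ ρ τ := by unfold eps; ring

theorem eps_swap' (σ τ ρ : Fin 3) : eps σ τ ρ = -eps τ σ ρ := by unfold eps; ring

theorem cc_eq (p q h : Fin 2 × Fin 3) :
    cc p q h = if p.1 = q.1 ∧ q.1 = h.1 then eps p.2 q.2 h.2 else 0 := by
  obtain ⟨f, σ⟩ := p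
  obtain ⟨g, τ⟩ := q
  obtain ⟨e, ρ⟩ := h
  fin_cases f <;> fin_cases g <;> fin_cases e <;> fin_cases σ <;> fin_cases τ <;> fin_cases ρ <;>
    simp [cc, baseStruct, P225.idx, eps] <;> norm_num

/-- The squared norm. -/
def nsq (q : V4) : ℝ := ∑ i, q i ^ 2

theorem nsq_qconj (q : V4) : nsq (qconj q) = nsq q := by simp [nsq, qconj, Fin.sum_univ_four]

theorem nsq_qprod (p q : V4) : nsq (qprod p q) = nsq p * nsq q := by
  simp [nsq, qprod, Fin.sum_univ_four]; ring

theorem rotM_orth (q : V4) : rotM q * (rotM q)ᵀ = (nsq q ^ 2) • 1 := by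
  ext i j
  fin_cases i <;> fin_cases j <;>
    simp [rotM, nsq, mul_apply, Fin.sum_univ_three, Fin.sum_univ_four] <;> ring

theorem rotM_orth' (q : V4) : (rotM q)ᵀ * rotM q = (nsq q ^ 2) • 1 := by
  ext i j
  fin_cases i <;> fin_cases j <;>
    simp [rotM, nsq, mul_apply, Fin.sum_univ_three, Fin.sum_univ_four] <;> ring

theorem det_rotM_cols (q : V4) (a b h : Fin 3) :
    ∑ σ, ∑ τ, rotM q σ a * rotM q τ b * eps σ τ h = nsq q * ∑ ρ, rotM q h ρ * eps a b ρ := by
  fin_cases a <;> fin_cases b <;> fin_cases h <;>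
    simp [rotM, nsq, eps, Fin.sum_univ_three, Fin.sum_univ_four] <;> ring

theorem det_rotM_rows (q : V4) (a b h : Fin 3) :
    ∑ σ, ∑ τ, rotM q a σ * rotM q b τ * eps σ τ h = nsq q * ∑ ρ, rotM q ρ h * eps a b ρ := by
  fin_cases a <;> fin_cases b <;> fin_cases h <;>
    simp [rotM, nsq, eps, Fin.sum_univ_three, Fin.sum_univ_four] <;> ring

theorem qprod_field (c x : V4) (r : Fin 3) :
    qprod (∑ σ, rotM c σ r • Sphere.mulR σ x) c = nsq c • Sphere.mulR r (qprod x c) := by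
  funext i
  fin_cases r <;> fin_cases i <;>
    simp [rotM, qprod, nsq, Sphere.mulR, Fin.sum_univ_three, Fin.sum_univ_four] <;> ring

theorem qconj_field (x : V4) (r : Fin 3) :
    qconj (∑ σ, (-rotM x r σ) • Sphere.mulR σ x) = nsq x • Sphere.mulR r (qconj x) := by
  funext i
  fin_cases r <;> fin_cases i <;>
    simp [rotM, qconj, nsq, Sphere.mulR, Fin.sum_univ_three, Fin.sum_univ_four] <;> ring

theorem rotM_qconj (q : V4) : rotM (qconj q) = (rotM q)ᵀ := by
  ext i j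
  fin_cases i <;> fin_cases j <;> simp [rotM, qconj] <;> ring

theorem qprod_mulR (p q : V4) (σ : Fin 3) :
    qprod p (Sphere.mulR σ q) = Sphere.mulR σ (qprod p q) := by
  funext i
  fin_cases σ <;> fin_cases i <;> simp [qprod, Sphere.mulR] <;> ring

theorem contDiff_rotM {n : WithTop ℕ∞} (r σ : Fin 3) :
    ContDiff ℝ n fun q : V4 => rotM q r σ := by
  fin_cases r <;> fin_cases σ <;> simp [rotM] <;> fun_prop

theorem fderiv_quad (i j : Fin 4) (x v : V4) :
    fderiv ℝ (fun q : V4 => q i * q j) x v = v i * x j + x i * v j := by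
  rw [((hasFDerivAt_apply (𝕜 := ℝ) i x).fun_mul (hasFDerivAt_apply (𝕜 := ℝ) j x)).fderiv]
  simp
  ring

/-- The derivative of the rotation along a right field. -/
theorem fderiv_rotM (x : V4) (r q σ : Fin 3) :
    fderiv ℝ (fun y : V4 => rotM y r q) x (Sphere.mulR σ x) = ∑ ρ, rotM x r ρ * eps σ q ρ := by
  have hd : ∀ i j, DifferentiableAt ℝ (fun y : V4 => y i * y j) x := fun i j =>
    (differentiableAt_apply i x).fun_mul (differentiableAt_apply j x)
  fin_cases r <;> fin_cases q <;>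
    simp [rotM, fderiv_fun_add, fderiv_fun_sub, fderiv_const_mul, fderiv_quad, hd,
      DifferentiableAt.fun_add, DifferentiableAt.fun_sub] <;>
    fin_cases σ <;> simp [Sphere.mulR, eps, Fin.sum_univ_three] <;> ring

end

end Vale.Agent.P225.Model
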